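import Vale.Agent.P254.H375.Tensor

/-!
P254, functional form (helper375), part 5: the supremum of a log-concave density.
-/

open MeasureTheory Set Filter Topology Metric Matrix
open Vale.Agent.P254.R304

namespace Vale.Agent.P254.H375

variable {n : ℕ} {f : (Fin n → ℝ) → ℝ}

lemma integrable_aff (h1 : ∫ x, f x = 1) (x0 : Fin n → ℝ) {s : ℝ} (hs : s ≠ 0) :
    Integrable fun x => f ((1 - s) • x0 + s • x) := by
  have h2 : Integrable fun y => f ((1 - s) • x0 + y) := (integrable_of_one h1).comp_add_left _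
  exact h2.comp_smul hs

lemma integral_aff (h1 : ∫ x, f x = 1) (x0 : Fin n → ℝ) {s : ℝ} (hs : 0 < s) :
    ∫ x, f ((1 - s) • x0 + s • x) = (s ^ n)⁻¹ := by
  have h2 := Measure.integral_comp_smul (volume : Measure (Fin n → ℝ))
    (fun y => f ((1 - s) • x0 + y)) s
  rw [h2, integral_add_left_eq_self (fun y => f y), h1, Module.finrank_fin_fun, smul_eq_mul,
    mul_one, abs_of_pos (by positivity)]

/-- `h(f) ≤ n - log f(x₀)` for every log-concave density -/
theorem entropy_add_log_le (h : LogConcave f) (h1 : ∫ x, f x = 1) {x0 : Fin n → ℝ}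
    (hx0 : 0 < f x0) : entropy f + Real.log (f x0) ≤ n := by
  have hi := integrable_of_one h1
  have hl := integrable_flog h h1
  obtain ⟨c, hc⟩ : ∃ c, c = Real.log (f x0) := ⟨_, rfl⟩
  rw [← hc]
  have hmain : ∀ s : ℝ, 0 < s → s < 1 → 1 + (1 - s) * (entropy f + c) ≤ (s ^ n)⁻¹ := by
    intro s hs hs1
    rw [← integral_aff h1 x0 hs]
    have e1 : 1 + (1 - s) * (entropy f + c) =
        ∫ x, ((1 + (1 - s) * c) * f x - (1 - s) * (f x * Real.log (f x))) := by
      rw [integral_sub (hi.const_mul _) (hl.const_mul _), integral_const_mul, integral_const_mul,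
        h1]
      unfold entropy
      ring
    rw [e1]
    refine integral_mono ((hi.const_mul _).sub (hl.const_mul _)) (integrable_aff h1 x0 hs.ne')
      fun x => ?_
    have h2 := h.2 x0 x s ⟨hs.le, hs1.le⟩
    refine le_trans ?_ h2
    simp only
    rcases (h.1 x).eq_or_lt with h0 | h0
    · rw [← h0]
      simp only [mul_zero, zero_mul, sub_zero]
      exact mul_nonneg (Real.rpow_nonneg hx0.le _) (Real.rpow_nonneg le_rfl _)
    · have e2 : f x0 ^ (1 - s) * f x ^ s = f x * Real.exp ((1 - s) * (c - Real.log (f x))) := by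
        rw [Real.rpow_def_of_pos hx0, Real.rpow_def_of_pos h0, ← hc, ← Real.exp_add]
        nth_rewrite 2 [← Real.exp_log h0]
        rw [← Real.exp_add]
        congr 1
        ring
      rw [e2]
      have h3 := Real.add_one_le_exp ((1 - s) * (c - Real.log (f x)))
      nlinarith
  have hε : ∀ ε : ℝ, 0 < ε → entropy f + c ≤ (ε⁻¹ • ((1 + ε) ^ n - (1 + 0) ^ n)) * (1 + ε) := by
    intro ε hε
    have hp : 0 < 1 + ε := by linarith
    have h2 := hmain (1 + ε)⁻¹ (inv_pos.2 hp) (inv_lt_one_of_one_lt₀ (by linarith))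
    rw [inv_pow, inv_inv] at h2
    have e1 : 1 - (1 + ε)⁻¹ = ε / (1 + ε) := by field_simp; ring
    rw [e1] at h2
    rw [add_zero, one_pow, smul_eq_mul]
    have h3 : ε / (1 + ε) * (entropy f + c) ≤ (1 + ε) ^ n - 1 := by linarith
    rw [div_mul_eq_mul_div, div_le_iff₀ hp] at h3
    rw [inv_mul_eq_div, div_mul_eq_mul_div, le_div_iff₀ hε]
    linarith
  have hd : HasDerivAt (fun ε : ℝ => (1 + ε) ^ n) n 0 := by
    have h2 := ((hasDerivAt_id (0 : ℝ)).const_add 1).fun_pow n
    refine h2.congr_deriv ?_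
    simp
  have hlim := hd.tendsto_slope_zero_right
  simp only [zero_add] at hlim
  have hlim2 : Tendsto (fun ε : ℝ => (ε⁻¹ • ((1 + ε) ^ n - (1 + 0) ^ n)) * (1 + ε)) (𝓝[>] 0)
      (𝓝 ((n : ℝ) * (1 + 0))) := by
    refine hlim.mul ?_
    have : Tendsto (fun ε : ℝ => 1 + ε) (𝓝 0) (𝓝 (1 + 0)) := by
      exact (continuous_const.add continuous_id).tendsto 0
    exact this.mono_left nhdsWithin_le_nhds
  rw [add_zero, mul_one] at hlim2
  refine ge_of_tendsto hlim2 ?_
  filter_upwards [self_mem_nhdsWithin] with ε h2 using by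
    have := hε ε h2
    simpa using this

/-- **the functional isotropic constant** -/
theorem sup_le {δ : ℝ} (hN : ∀ n, X.Loss.NiceDDL δ n) (h : LogConcave f) (h1 : ∫ x, f x = 1)
    (x : Fin n → ℝ) : f x * Real.sqrt (cov f).det ≤ Real.exp (δ * n) := by
  have hd := (cov_posDef h h1).det_pos
  rcases (h.1 x).eq_or_lt with h0 | h0
  · rw [← h0, zero_mul]
    exact (Real.exp_pos _).le
  · have h2 := entropy_ge hN h h1
    have h3 := entropy_add_log_le h h1 h0
    rw [← Real.log_le_iff_le_exp (by positivity), Real.log_mul h0.ne' (by positivity),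
      Real.log_sqrt hd.le]
    linarith

end Vale.Agent.P254.H375
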