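import Vale.Agent.P254.H375.Sup

/-!
P254, functional form (helper375), part 6: the entropy inequality with loss `δ` in dimension
`n + 1` gives `L_K ≤ exp (δ (n + 1) / n) L_Δ` in dimension `n`, for every `δ`.
-/

open MeasureTheory Set Filter Topology Metric Matrix
open Vale.Agent.P254.R304

namespace Vale.Agent.P254.H375

variable {n : ℕ}

lemma tilt_zero (c x : Fin n → ℝ) : tilt 0 c x = Real.exp (c ⬝ᵥ x) := by
  unfold tilt
  simp

lemma logConcave_limDens {C : Set (Fin n → ℝ)} (hC : Convex ℝ C) (c : Fin n → ℝ) :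
    LogConcave (limDens 0 c C) := by
  have hnn : ∀ x, 0 ≤ limDens 0 c C x := fun x =>
    indicator_nonneg (fun y _ => (tilt_pos 0 c y).le) x
  refine ⟨hnn, fun x y t ht => ?_⟩
  rcases ht.1.eq_or_lt with h0 | h0
  · rw [← h0]
    simp
  rcases ht.2.eq_or_lt with h1 | h1
  · rw [h1]
    simp
  by_cases hx : x ∈ C
  · by_cases hy : y ∈ C
    · have hz : (1 - t) • x + t • y ∈ C := hC hx hy (by linarith) h0.le (by ring)
      unfold limDens
      rw [indicator_of_mem hx, indicator_of_mem hy, indicator_of_mem hz, tilt_zero, tilt_zero,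
        tilt_zero, ← Real.exp_mul, ← Real.exp_mul, ← Real.exp_add, dotProduct_add,
        dotProduct_smul, dotProduct_smul, smul_eq_mul, smul_eq_mul]
      apply le_of_eq
      congr 1
      ring
    · have e1 : limDens 0 c C y = 0 := by
        unfold limDens
        rw [indicator_of_notMem hy]
      rw [e1, Real.zero_rpow h0.ne', mul_zero]
      exact hnn _
  · have e1 : limDens 0 c C x = 0 := by
      unfold limDens
      rw [indicator_of_notMem hx]
    rw [e1, Real.zero_rpow (by linarith), zero_mul]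
    exact hnn _

lemma LogConcave.smul {f : (Fin n → ℝ) → ℝ} (h : LogConcave f) {s : ℝ} (hs : 0 < s) :
    LogConcave fun x => s * f x := by
  refine ⟨fun x => mul_nonneg hs.le (h.1 x), fun x y t ht => ?_⟩
  simp only
  rw [Real.mul_rpow hs.le (h.1 x), Real.mul_rpow hs.le (h.1 y)]
  have e1 : s ^ (1 - t) * f x ^ (1 - t) * (s ^ t * f y ^ t) =
      (s ^ (1 - t) * s ^ t) * (f x ^ (1 - t) * f y ^ t) := by ring
  rw [e1, ← Real.rpow_add hs, sub_add_cancel, Real.rpow_one]
  exact mul_le_mul_of_nonneg_left (h.2 x y t ht) hs.le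

/-- the entropy inequality in dimension `n`, with loss `δ` -/
def EntropyIneq (δ : ℝ) (n : ℕ) : Prop :=
  ∀ f : (Fin n → ℝ) → ℝ, LogConcave f → ∫ x, f x = 1 →
    (1 - δ) * n + 1 / 2 * Real.log (cov f).det ≤ entropy f

lemma DD_of_entropy {δ : ℝ} (hE : EntropyIneq δ n) {G : (Fin n → ℝ) → ℝ} {M a : ℝ}
    (hM : 0 ≤ M) (h : LogConcave G) (hg : Good G M a) : -(δ * n) ≤ DD G := by
  have hZ := hg.mass_pos
  have hs : 0 < (∫ x, G x)⁻¹ := inv_pos.2 hZ
  have h1 : ∫ x, (∫ x, G x)⁻¹ * G x = 1 := by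
    rw [integral_const_mul, inv_mul_cancel₀ hZ.ne']
  have h2 := hE _ (h.smul hs) h1
  rw [← DD_smul hs hg.int1 (ent_integrable a M hg.ha hM hg.meas hg.nn hg.le) hZ.ne']
  unfold DD entF
  rw [← cov_eq_covF h1, h1, Real.log_one, div_one, zero_sub]
  unfold entropy at h2
  linarith

theorem isoConst_of_entropy {δ : ℝ} (hn : 1 ≤ n) (hE : EntropyIneq δ (n + 1))
    {K S : Set (Fin n → ℝ)} (hK : IsConvexBody K) (hS : IsSimplex S) :
    isoConst K ≤ Real.exp (δ * (((n : ℝ) + 1) / n)) * isoConst S := by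
  obtain ⟨a, ha, hdec⟩ := cone_decay hK.2.1
  have hg : Good (coneDens K) (Real.exp 0) a := by
    rw [coneDens_eq]
    exact good_limDens Matrix.PosSemidef.zero (isClosed_cone hK.2.1)
      (cone_interior hK.2.2) ha hdec
  have hlc : LogConcave (coneDens K) := by
    rw [coneDens_eq]
    exact logConcave_limDens (convex_cone hK.1) _
  have h1 := DD_of_entropy hE (Real.exp_pos 0).le hlc hg
  have h2 : ((n + 1 : ℕ) : ℝ) + 1 / 2 * Real.log (K468.covF (K468.coneF K)).det ≤
      K468.entF (K468.coneF K) + δ * ((n : ℝ) + 1) := by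
    rw [covF_congr coneF_ae, entF_congr coneF_ae, hg.covF_eq, hg.entF_eq (Real.exp_pos _).le]
    unfold DD at h1
    push_cast at h1 ⊢
    linarith
  have hn0 : (0 : ℝ) < n := by exact_mod_cast hn
  rw [isoConst_simplex hS]
  have hr : 0 ≤ (covMatrix K).det / (volume K).toReal ^ 2 :=
    div_nonneg (K468.det_cov_nonneg hK.2.1) (sq_nonneg _)
  have hs := (K468.ratio_pos n).le
  have h3 : (covMatrix K).det / (volume K).toReal ^ 2 ≤
      Real.exp (2 * (δ * ((n : ℝ) + 1))) *
        ((covMatrix (stdS n)).det / (volume (stdS n)).toReal ^ 2) := by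
    rcases (K468.det_cov_nonneg hK.2.1).eq_or_lt with h0 | h0
    · rw [← h0, zero_div]
      exact mul_nonneg (Real.exp_pos _).le hs
    · exact X.Loss.ratio_le_of_loss hK h0 h2
  have h4 := Real.rpow_le_rpow hr h3 (z := 1 / (2 * (n : ℝ))) (by positivity)
  rw [Real.mul_rpow (Real.exp_pos _).le hs, ← Real.exp_mul] at h4
  have e : 2 * (δ * ((n : ℝ) + 1)) * (1 / (2 * (n : ℝ))) = δ * (((n : ℝ) + 1) / n) := by
    field_simp
  rw [e] at h4
  exact h4

end Vale.Agent.P254.H375
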