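import Vale.Agent.P254.H375.Sharp
import Vale.Agent.P254.H375.Equiv
import Vale.Agent.P254.H242.Sharp

/-!
P254, functional form (helper375): everything for the hand-in, with the loss `7/40` of helper242.
-/

open MeasureTheory Set Matrix

namespace Vale.Agent.P254.H375

/-- The statement about log-concave densities on `ℝ^n`: (LC) and (LC0). -/
theorem functional (n : ℕ) (f : (Fin n → ℝ) → ℝ) (hf : LogConcave f) (h1 : ∫ x, f x = 1) :
    (Integrable fun x => f x * Real.log (f x)) ∧ (cov f).PosDef ∧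
    33 / 40 * (n : ℝ) + 1 / 2 * Real.log (cov f).det ≤ entropy f ∧
    (∀ x, f x * Real.sqrt (cov f).det ≤ Real.exp (7 / 40 * n)) ∧
    ((∃ (a w : Fin n → Fin n → ℝ) (c : Fin n → ℝ), LinearIndependent ℝ a ∧
        (∀ i, w i ⬝ᵥ a i = 2) ∧ ∀ i x, f (x - (w i ⬝ᵥ x - c i) • a i) = f x) →
      (n : ℝ) + 1 / 2 * Real.log (cov f).det ≤ entropy f ∧
        ∀ x, f x * Real.sqrt (cov f).det ≤ 1) := by
  refine ⟨integrable_flog hf h1, cov_posDef hf h1, ?_, fun x => sup_le H242.niceDDL hf h1 x, ?_⟩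
  · have h2 := entropy_ge H242.niceDDL hf h1
    linarith
  · rintro ⟨a, w, c, ha, hw, hR⟩
    have h2 := lc_refl hf h1 ha hw hR
    exact ⟨h2.2.2.1, h2.2.2.2⟩

/-- The reduction: the entropic inequality with loss `δ` in `ℝ^(n+1)` implies the comparison with
the simplex, with factor `exp (δ (n + 1) / n)`, in `ℝ^n`; for `δ = 0` this is the inequality of
Q1. -/
theorem reduction (n : ℕ) (hn : 1 ≤ n) (δ : ℝ)
    (h : ∀ f : (Fin (n + 1) → ℝ) → ℝ, LogConcave f → ∫ x, f x = 1 →
      (1 - δ) * ((n : ℝ) + 1) + 1 / 2 * Real.log (cov f).det ≤ entropy f)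
    (K S : Set (Fin n → ℝ)) (hK : IsConvexBody K) (hS : IsSimplex S) :
    isoConst K ≤ Real.exp (δ * (((n : ℝ) + 1) / n)) * isoConst S := by
  refine isoConst_of_entropy hn (fun f hf h1 => ?_) hK hS
  have h2 := h f hf h1
  push_cast
  exact h2

end Vale.Agent.P254.H375
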