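import Vale.Agent.P254.H375.KLim
import Vale.Agent.P254.Refl.Good

/-!
P254, functional form (helper375), part 10: the sharp entropic inequality for the log-concave
densities with `n` affine hyperplane symmetries with linearly independent directions.
-/

open MeasureTheory Set Filter Topology Metric Matrix

namespace Vale.Agent.P254.H375

open Vale.Agent.P254.FV (Dn simpC good_of)

variable {n M : ℕ} {f : (Fin n → ℝ) → ℝ}

lemma append_dot (u : Fin n → ℝ) (v : Fin M → ℝ) (z : Fin (n + M) → ℝ) :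
    Fin.append u v ⬝ᵥ z = (u ⬝ᵥ fun i => z (Fin.castAdd M i)) +
      v ⬝ᵥ fun j => z (Fin.natAdd n j) := by
  unfold dotProduct
  rw [Fin.sum_univ_add]
  simp

/-- the directions of the symmetries of `K_M` -/
def dA (M : ℕ) (a : Fin n → Fin n → ℝ) : Fin (n + M) → Fin (n + M) → ℝ :=
  Fin.addCases (fun i => Fin.append (a i) 0) fun j => Fin.append 0 (Pi.single j 1)

/-- the functionals of the symmetries of `K_M` -/
def dW (M : ℕ) (w : Fin n → Fin n → ℝ) : Fin (n + M) → Fin (n + M) → ℝ :=
  Fin.addCases (fun i => Fin.append (w i) 0) fun j => Fin.append 0 (Pi.single j 1 + 1)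

/-- the constants of the symmetries of `K_M` -/
def dC (M : ℕ) (c : Fin n → ℝ) : Fin (n + M) → ℝ := Fin.addCases c 0

lemma dA_li {a : Fin n → Fin n → ℝ} (ha : LinearIndependent ℝ a) :
    LinearIndependent ℝ (dA M a) := by
  rw [Fintype.linearIndependent_iff] at ha ⊢
  intro g hg
  rw [Fin.sum_univ_add] at hg
  simp only [dA, Fin.addCases_left, Fin.addCases_right] at hg
  have h1 : ∑ i : Fin n, g (Fin.castAdd M i) • a i = 0 := by
    ext j
    have := congrFun hg (Fin.castAdd M j)
    simpa [Finset.sum_apply] using this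
  have h2 : ∀ j : Fin M, g (Fin.natAdd n j) = 0 := by
    intro j
    have := congrFun hg (Fin.natAdd n j)
    simpa [Finset.sum_apply, Pi.single_apply] using this
  intro i
  refine Fin.addCases (fun j => ?_) (fun j => ?_) i
  · exact ha _ h1 j
  · exact h2 j

lemma dW_dA {a w : Fin n → Fin n → ℝ} (hw : ∀ i, w i ⬝ᵥ a i = 2) (i : Fin (n + M)) :
    dW M w i ⬝ᵥ dA M a i = 2 := by
  refine Fin.addCases (fun j => ?_) (fun j => ?_) i
  · simp only [dA, dW, Fin.addCases_left]
    rw [append_dot]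
    simp only [Fin.append_left, Fin.append_right]
    simpa using hw j
  · simp only [dA, dW, Fin.addCases_right]
    rw [append_dot]
    simp only [Fin.append_left, Fin.append_right]
    simp
    norm_num

lemma mem_BS {z : Fin (n + M) → ℝ} (hx : Real.exp (-(M : ℝ)) < f fun i => z (Fin.castAdd M i))
    (h2 : ∀ i, -(gM f M fun i => z (Fin.castAdd M i)) ≤ z (Fin.natAdd n i))
    (h3 : ∑ i, z (Fin.natAdd n i) ≤ gM f M fun i => z (Fin.castAdd M i)) : z ∈ BS f M :=
  ⟨hx, h2, h3⟩

lemma BS_symm {a w : Fin n → Fin n → ℝ} {c : Fin n → ℝ}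
    (hR : ∀ i x, f (x - (w i ⬝ᵥ x - c i) • a i) = f x) (i : Fin (n + M)) {z : Fin (n + M) → ℝ}
    (hz : z ∈ BS f M) : z - (dW M w i ⬝ᵥ z - dC M c i) • dA M a i ∈ BS f M := by
  obtain ⟨hx, h2, h3⟩ := hz
  simp only at hx h2 h3
  obtain ⟨z', hz'⟩ : ∃ z', z' = z - (dW M w i ⬝ᵥ z - dC M c i) • dA M a i := ⟨_, rfl⟩
  rw [← hz']
  revert hz'
  refine Fin.addCases (fun j hz' => ?_) (fun j hz' => ?_) i
  · simp only [dA, dW, dC, Fin.addCases_left] at hz'
    rw [append_dot, zero_dotProduct, add_zero] at hz'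
    have e1 : (fun i => z' (Fin.castAdd M i)) = (fun i => z (Fin.castAdd M i)) -
          ((w j ⬝ᵥ fun i => z (Fin.castAdd M i)) - c j) • a j := by
      ext i
      rw [hz']
      simp
    have e2 : ∀ i, z' (Fin.natAdd n i) = z (Fin.natAdd n i) := by
      intro i
      rw [hz']
      simp
    have hf := hR j fun i => z (Fin.castAdd M i)
    have hg : (gM f M fun i => z' (Fin.castAdd M i)) = gM f M fun i => z (Fin.castAdd M i) := by
      rw [e1, gM, hf, gM]
    refine mem_BS ?_ (fun i => ?_) ?_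
    · rw [e1, hf]
      exact hx
    · rw [hg, e2]
      exact h2 i
    · rw [hg, Finset.sum_congr rfl fun i _ => e2 i]
      exact h3
  · simp only [dA, dW, dC, Fin.addCases_right] at hz'
    have hs : ((Pi.single j 1 + 1 : Fin M → ℝ) ⬝ᵥ fun i => z (Fin.natAdd n i)) =
        z (Fin.natAdd n j) + ∑ i, z (Fin.natAdd n i) := by
      rw [add_dotProduct, single_one_dotProduct]
      simp [dotProduct]
    rw [append_dot, zero_dotProduct, zero_add, hs] at hz'
    have e1 : (fun i => z' (Fin.castAdd M i)) = fun i => z (Fin.castAdd M i) := by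
      ext i
      rw [hz']
      simp
    have e2 : ∀ i, z' (Fin.natAdd n i) = z (Fin.natAdd n i) -
            (z (Fin.natAdd n j) + ∑ i, z (Fin.natAdd n i)) * (Pi.single j 1 : Fin M → ℝ) i := by
      intro i
      rw [hz']
      simp
    refine mem_BS ?_ (fun i => ?_) ?_
    · rw [e1]
      exact hx
    · rw [e1, e2]
      rcases eq_or_ne i j with rfl | hij
      · rw [Pi.single_eq_same]
        linarith
      · rw [Pi.single_eq_of_ne hij]
        linarith [h2 i]
    · rw [e1, Finset.sum_congr rfl fun i _ => e2 i, Finset.sum_sub_distrib, ← Finset.mul_sum,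
        Finset.sum_pi_single']
      simp only [Finset.mem_univ, if_true]
      linarith [h2 j]

theorem Dn_KM_refl (hM : 1 ≤ M) (hK : IsConvexBody (KM f M)) {a w : Fin n → Fin n → ℝ}
    {c : Fin n → ℝ} (ha : LinearIndependent ℝ a) (hw : ∀ i, w i ⬝ᵥ a i = 2)
    (hR : ∀ i x, f (x - (w i ⬝ᵥ x - c i) • a i) = f x) : Dn (KM f M) ≤ simpC (n + M) := by
  have hn : 1 ≤ n + M := by omega
  refine (good_of hn hK fun S hS => Refl.top hn hK hS (dA_li (M := M) ha) (dW_dA (M := M) hw)
    (c := dC M c) fun i x hx => ?_).le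
  have hc : Continuous fun z : Fin (n + M) → ℝ => z - (dW M w i ⬝ᵥ z - dC M c i) • dA M a i := by
    fun_prop
  have h2 : MapsTo (fun z : Fin (n + M) → ℝ => z - (dW M w i ⬝ᵥ z - dC M c i) • dA M a i)
      (BS f M) (BS f M) := fun z hz => BS_symm hR i hz
  exact h2.closure hc hx

/-- the sharp entropic inequality for densities with `n` hyperplane symmetries -/
theorem entropy_ge_refl (h : LogConcave f) (h1 : ∫ x, f x = 1) {a w : Fin n → Fin n → ℝ}
    {c : Fin n → ℝ} (ha : LinearIndependent ℝ a) (hw : ∀ i, w i ⬝ᵥ a i = 2)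
    (hR : ∀ i x, f (x - (w i ⬝ᵥ x - c i) • a i) = f x) :
    (n : ℝ) + 1 / 2 * Real.log (cov f).det ≤ entropy f := by
  refine entropy_ge_of_bodies h h1 ?_
  filter_upwards [eventually_ge_atTop 1] with M hM hK
  exact Dn_KM_refl hM hK ha hw hR

theorem sup_le_of_sharp (h : LogConcave f) (h1 : ∫ x, f x = 1)
    (hs : (n : ℝ) + 1 / 2 * Real.log (cov f).det ≤ entropy f) (x : Fin n → ℝ) :
    f x * Real.sqrt (cov f).det ≤ 1 := by
  have hd := (cov_posDef h h1).det_pos
  rcases (h.1 x).eq_or_lt with h0 | h0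
  · rw [← h0, zero_mul]
    exact zero_le_one
  · have h2 := entropy_add_log_le h h1 h0
    rw [← Real.log_nonpos_iff (by positivity), Real.log_mul h0.ne' (Real.sqrt_ne_zero'.2 hd),
      Real.log_sqrt hd.le]
    linarith

/-- (LC0): the sharp statement for the densities with `n` hyperplane symmetries -/
theorem lc_refl (h : LogConcave f) (h1 : ∫ x, f x = 1) {a w : Fin n → Fin n → ℝ}
    {c : Fin n → ℝ} (ha : LinearIndependent ℝ a) (hw : ∀ i, w i ⬝ᵥ a i = 2)
    (hR : ∀ i x, f (x - (w i ⬝ᵥ x - c i) • a i) = f x) :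
    (Integrable fun x => f x * Real.log (f x)) ∧ (cov f).PosDef ∧
      (n : ℝ) + 1 / 2 * Real.log (cov f).det ≤ entropy f ∧
      ∀ x, f x * Real.sqrt (cov f).det ≤ 1 :=
  ⟨integrable_flog h h1, cov_posDef h h1, entropy_ge_refl h h1 ha hw hR,
    sup_le_of_sharp h h1 (entropy_ge_refl h h1 ha hw hR)⟩

end Vale.Agent.P254.H375
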