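import Mathlib

/-!
P254, functional form (helper375): log-concave densities on `ℝ^n`, entropy, covariance.
-/

open MeasureTheory

namespace Vale.Agent.P254.H375

/-- `f` is nonnegative and log-concave on `ℝ^n`. -/
def LogConcave {n : ℕ} (f : (Fin n → ℝ) → ℝ) : Prop :=
  (∀ x, 0 ≤ f x) ∧
    ∀ x y, ∀ t ∈ Set.Icc (0 : ℝ) 1, f x ^ (1 - t) * f y ^ t ≤ f ((1 - t) • x + t • y)

/-- The covariance matrix of a probability density `f` on `ℝ^n`. -/
noncomputable def cov {n : ℕ} (f : (Fin n → ℝ) → ℝ) : Matrix (Fin n) (Fin n) ℝ :=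
  fun i j => (∫ x, x i * x j * f x) - (∫ x, x i * f x) * ∫ x, x j * f x

/-- The differential entropy `- ∫ f log f` of a probability density `f` on `ℝ^n`. -/
noncomputable def entropy {n : ℕ} (f : (Fin n → ℝ) → ℝ) : ℝ := -∫ x, f x * Real.log (f x)

end Vale.Agent.P254.H375
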