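import Vale.Agent.P254.Bdl.B12
import Vale.Agent.P254.H375.Defs

/-!
P254, functional form (helper375), part 1: exponential decay of log-concave densities.
-/

open MeasureTheory Set Filter Topology Metric
open Vale.Agent.P254.R304

namespace Vale.Agent.P254.H375

variable {n : ℕ} {f : (Fin n → ℝ) → ℝ}

/-- a convex set with empty interior is a null set -/
theorem null_of_interior_empty {s : Set (Fin n → ℝ)} (hs : Convex ℝ s) (h : interior s = ∅) :
    volume s = 0 := by
  have h1 : s ⊆ frontier s := by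
    intro x hx
    refine ⟨subset_closure hx, ?_⟩
    rw [h]
    exact notMem_empty x
  exact measure_mono_null h1 (hs.addHaar_frontier volume)

theorem LogConcave.level (h : LogConcave f) {c : ℝ} (hc : 0 < c) : Convex ℝ {x | c ≤ f x} := by
  intro x hx y hy a b ha hb hab
  have hx' : c ≤ f x := hx
  have hy' : c ≤ f y := hy
  have ea : a = 1 - b := by linarith
  have h1 := h.2 x y b ⟨hb, by linarith⟩
  change c ≤ f (a • x + b • y)
  rw [ea]
  refine le_trans ?_ h1
  calc c = c ^ (1 - b) * c ^ b := by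
        rw [← Real.rpow_add hc, sub_add_cancel, Real.rpow_one]
    _ ≤ f x ^ (1 - b) * f y ^ b :=
        mul_le_mul (Real.rpow_le_rpow hc.le hx' (by linarith)) (Real.rpow_le_rpow hc.le hy' hb)
          (Real.rpow_nonneg hc.le _) (Real.rpow_nonneg (hc.le.trans hx') _)

theorem integrable_of_one (h1 : ∫ x, f x = 1) : Integrable f := by
  by_contra h
  rw [integral_undef h] at h1
  exact zero_ne_one h1

/-- a log-concave density is bounded below by a positive constant on some ball -/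
theorem LogConcave.exists_ball (h : LogConcave f) (h1 : ∫ x, f x = 1) :
    ∃ (x0 : Fin n → ℝ) (r c : ℝ), 0 < r ∧ 0 < c ∧ ∀ x ∈ ball x0 r, c ≤ f x := by
  by_contra hno
  push Not at hno
  have hS : ∀ k : ℕ, volume {x | 1 / ((k : ℝ) + 1) ≤ f x} = 0 := by
    intro k
    have hk : (0 : ℝ) < 1 / ((k : ℝ) + 1) := by positivity
    refine null_of_interior_empty (h.level hk) ?_
    by_contra hne
    obtain ⟨x0, hx0⟩ := nonempty_iff_ne_empty.2 hne
    obtain ⟨r, hr, hb⟩ := Metric.isOpen_iff.1 isOpen_interior x0 hx0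
    obtain ⟨x, hx, hx2⟩ := hno x0 r _ hr hk
    have h3 := interior_subset (hb hx)
    exact absurd h3 (not_le.2 hx2)
  have h0 : volume (⋃ k : ℕ, {x | 1 / ((k : ℝ) + 1) ≤ f x}) = 0 := measure_iUnion_null hS
  have hz : f =ᵐ[volume] 0 := by
    filter_upwards [compl_mem_ae_iff.2 h0] with x hx
    rw [mem_compl_iff, mem_iUnion, not_exists] at hx
    have h3 : f x ≤ 0 := by
      by_contra hlt
      obtain ⟨k, hk⟩ := exists_nat_one_div_lt (not_le.1 hlt)
      exact hx k hk.le
    exact le_antisymm h3 (h.1 x)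
  rw [integral_congr_ae hz] at h1
  simp at h1

/-- a convex set of finite measure which contains a ball is bounded -/
theorem bounded_of_convex {L : Set (Fin n → ℝ)} (hL : Convex ℝ L) {x0 : Fin n → ℝ} {r : ℝ}
    (hr : 0 < r) (hb : ball x0 r ⊆ L) (hfin : volume L ≠ ⊤) : Bornology.IsBounded L := by
  by_contra hunb
  obtain ⟨V, hV⟩ : ∃ V, V = volume (ball (0 : Fin n → ℝ) (r / 2)) := ⟨_, rfl⟩
  have hVpos : 0 < V := by rw [hV]; exact measure_ball_pos _ _ (by positivity)
  have hVfin : V ≠ ⊤ := by rw [hV]; exact measure_ball_lt_top.ne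
  have hm : ∀ m : ℕ, (m : ENNReal) * V ≤ volume L := by
    intro m
    obtain ⟨y, hy, hy2⟩ : ∃ y ∈ L, 2 * r * (m + 1) ≤ ‖y - x0‖ := by
      by_contra hno
      push Not at hno
      apply hunb
      rw [Metric.isBounded_iff_subset_ball x0]
      exact ⟨2 * r * (m + 1), fun y hy => by rw [mem_ball, dist_eq_norm]; exact hno y hy⟩
    obtain ⟨d, hd⟩ : ∃ d, d = ‖y - x0‖ := ⟨_, rfl⟩
    rw [← hd] at hy2
    have hm0 : (0 : ℝ) ≤ m := Nat.cast_nonneg m
    have hd0 : 0 < d := lt_of_lt_of_le (by positivity) hy2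
    let z : ℕ → (Fin n → ℝ) := fun k => x0 + ((k : ℝ) * r / d) • (y - x0)
    have hsub : ∀ k < m, ball (z k) (r / 2) ⊆ L := by
      intro k hk w hw
      have hk' : (k : ℝ) + 1 ≤ m := by exact_mod_cast hk
      have hk0 : (0 : ℝ) ≤ k := Nat.cast_nonneg k
      obtain ⟨s, hs⟩ : ∃ s, s = (k : ℝ) * r / d := ⟨_, rfl⟩
      have hs0 : 0 ≤ s := by rw [hs]; positivity
      have hs1 : s ≤ 1 / 2 := by
        rw [hs, div_le_iff₀ hd0]
        nlinarith
      have h1s : 0 < 1 - s := by linarith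
      have hx : (1 - s)⁻¹ • (w - s • y) ∈ L := by
        apply hb
        rw [mem_ball, dist_eq_norm]
        have e1 : (1 - s)⁻¹ • (w - s • y) - x0 = (1 - s)⁻¹ • (w - z k) := by
          have : x0 = (1 - s)⁻¹ • ((1 - s) • x0) := by
            rw [smul_smul, inv_mul_cancel₀ h1s.ne', one_smul]
          nth_rewrite 1 [this]
          rw [← smul_sub]
          congr 1
          simp only [z, ← hs, smul_sub, sub_smul, one_smul]
          abel
        rw [e1, norm_smul, Real.norm_eq_abs, abs_of_pos (inv_pos.2 h1s), inv_mul_lt_iff₀ h1s]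
        rw [mem_ball, dist_eq_norm] at hw
        refine hw.trans_le ?_
        nlinarith
      have h3 := hL hx hy h1s.le hs0 (by ring)
      rw [smul_smul, mul_inv_cancel₀ h1s.ne', one_smul, sub_add_cancel] at h3
      exact h3
    have hdis : (Finset.range m : Set ℕ).PairwiseDisjoint fun k => ball (z k) (r / 2) := by
      intro k _ l _ hkl
      apply ball_disjoint_ball
      have e2 : z k - z l = (((k : ℝ) - l) * r / d) • (y - x0) := by
        simp only [z]
        rw [add_sub_add_left_eq_sub, ← sub_smul]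
        congr 1
        ring
      rw [dist_eq_norm, e2, norm_smul, ← hd, Real.norm_eq_abs, abs_div, abs_mul, abs_of_pos hr,
        abs_of_pos hd0, div_mul_cancel₀ _ hd0.ne']
      have h4 : (1 : ℝ) ≤ |(k : ℝ) - l| := by
        have h5 : (1 : ℤ) ≤ |(k : ℤ) - l| := Int.one_le_abs (sub_ne_zero.2 (by exact_mod_cast hkl))
        exact_mod_cast h5
      nlinarith
    have h6 : volume (⋃ k ∈ Finset.range m, ball (z k) (r / 2)) = m * V := by
      rw [measure_biUnion_finset hdis fun k _ => measurableSet_ball]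
      have : ∀ k ∈ Finset.range m, volume (ball (z k) (r / 2)) = V := by
        intro k _
        rw [hV, Measure.addHaar_ball_center]
      rw [Finset.sum_congr rfl this, Finset.sum_const, Finset.card_range, nsmul_eq_mul]
    rw [← h6]
    refine measure_mono (iUnion₂_subset fun k hk => hsub k (Finset.mem_range.1 hk))
  obtain ⟨m, hm2⟩ := ENNReal.exists_nat_mul_gt hVpos.ne' hfin
  exact absurd (hm m) (not_le.2 hm2)

/-- a log-concave density is bounded -/
theorem LogConcave.exists_upper (h : LogConcave f) (h1 : ∫ x, f x = 1) :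
    ∃ M : ℝ, ∀ y, f y ≤ M := by
  obtain ⟨x0, r, c, hr, hc, hb⟩ := h.exists_ball h1
  have hint := integrable_of_one h1
  obtain ⟨V, hV⟩ : ∃ V, V = (volume (ball (0 : Fin n → ℝ) (r / 2))).toReal := ⟨_, rfl⟩
  have hVpos : 0 < V := by
    rw [hV]
    exact ENNReal.toReal_pos (measure_ball_pos _ _ (by positivity)).ne' measure_ball_lt_top.ne
  refine ⟨(1 / (c ^ (1 / 2 : ℝ) * V)) ^ 2, fun y => ?_⟩
  have hc2 : 0 < c ^ (1 / 2 : ℝ) := Real.rpow_pos_of_pos hc _
  have hy0 := h.1 y
  obtain ⟨z0, hz0⟩ : ∃ z0 : Fin n → ℝ, z0 = (1 / 2 : ℝ) • x0 + (1 / 2 : ℝ) • y := ⟨_, rfl⟩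
  have hlow : ∀ w ∈ ball z0 (r / 2), c ^ (1 / 2 : ℝ) * f y ^ (1 / 2 : ℝ) ≤ f w := by
    intro w hw
    have hx : (2 : ℝ) • w - y ∈ ball x0 r := by
      rw [mem_ball, dist_eq_norm] at hw ⊢
      have e1 : (2 : ℝ) • w - y - x0 = (2 : ℝ) • (w - z0) := by
        rw [hz0]
        ext i
        simp only [Pi.sub_apply, Pi.smul_apply, Pi.add_apply, smul_eq_mul]
        ring
      rw [e1, norm_smul, Real.norm_eq_abs, abs_of_pos two_pos]
      linarith
    have h3 := h.2 ((2 : ℝ) • w - y) y (1 / 2) ⟨by norm_num, by norm_num⟩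
    have e2 : (1 - 1 / 2 : ℝ) • ((2 : ℝ) • w - y) + (1 / 2 : ℝ) • y = w := by
      ext i
      simp only [Pi.sub_apply, Pi.smul_apply, Pi.add_apply, smul_eq_mul]
      ring
    rw [e2] at h3
    refine le_trans ?_ h3
    refine mul_le_mul_of_nonneg_right ?_ (Real.rpow_nonneg hy0 _)
    have e3 : (1 - 1 / 2 : ℝ) = 1 / 2 := by norm_num
    rw [e3]
    exact Real.rpow_le_rpow hc.le (hb _ hx) (by norm_num)
  have h4 : V * (c ^ (1 / 2 : ℝ) * f y ^ (1 / 2 : ℝ)) ≤ 1 := by
    have h5 : ∫ x in ball z0 (r / 2), f x ≤ 1 := by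
      rw [← h1]
      exact setIntegral_le_integral hint (ae_of_all _ h.1)
    refine le_trans ?_ h5
    have h6 : ∫ _x in ball z0 (r / 2), (c ^ (1 / 2 : ℝ) * f y ^ (1 / 2 : ℝ)) =
        V * (c ^ (1 / 2 : ℝ) * f y ^ (1 / 2 : ℝ)) := by
      rw [setIntegral_const, smul_eq_mul, hV]
      congr 1
      unfold Measure.real
      rw [Measure.addHaar_ball_center]
    rw [← h6]
    exact setIntegral_mono_on (integrableOn_const measure_ball_lt_top.ne) hint.integrableOn
      measurableSet_ball hlow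
  have h7 : f y ^ (1 / 2 : ℝ) ≤ 1 / (c ^ (1 / 2 : ℝ) * V) := by
    rw [le_div_iff₀ (by positivity)]
    linarith
  calc f y = (f y ^ (1 / 2 : ℝ)) ^ 2 := by
        rw [← Real.rpow_natCast, ← Real.rpow_mul hy0]
        norm_num
    _ ≤ _ := by
        have := Real.rpow_nonneg hy0 (1 / 2 : ℝ)
        gcongr

/-- **exponential decay** of a log-concave density -/
theorem LogConcave.good (h : LogConcave f) (h1 : ∫ x, f x = 1) :
    ∃ (M a : ℝ), 0 ≤ M ∧ Good f M a := by
  obtain ⟨x0, r, c, hr, hc, hb⟩ := h.exists_ball h1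
  obtain ⟨M0, hM0⟩ := h.exists_upper h1
  have hint := integrable_of_one h1
  have he : 0 < c / Real.exp 1 := by positivity
  have hec : c / Real.exp 1 < c := by
    rw [div_lt_iff₀ (Real.exp_pos 1)]
    have : (1 : ℝ) < Real.exp 1 := Real.one_lt_exp_iff.2 one_pos
    nlinarith
  have hfin : volume {x | c / Real.exp 1 ≤ f x} ≠ ⊤ := by
    have h2 := hint.measure_norm_ge_lt_top he
    refine (lt_of_le_of_lt (measure_mono fun x hx => ?_) h2).ne
    have hx' : c / Real.exp 1 ≤ f x := hx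
    change c / Real.exp 1 ≤ ‖f x‖
    rw [Real.norm_eq_abs, abs_of_nonneg (h.1 x)]
    exact hx'
  have hbdd := bounded_of_convex (h.level he) hr (fun x hx => hec.le.trans (hb x hx)) hfin
  obtain ⟨R0, hR0⟩ := (Metric.isBounded_iff_subset_ball x0).1 hbdd
  obtain ⟨R, hR⟩ : ∃ R, R = max R0 1 := ⟨_, rfl⟩
  have hRpos : 0 < R := by rw [hR]; exact lt_max_of_lt_right one_pos
  have hL : ∀ z, R ≤ ‖z - x0‖ → f z < c / Real.exp 1 := by
    intro z hz
    by_contra hno
    have h2 := hR0 (not_lt.1 hno : z ∈ {x | c / Real.exp 1 ≤ f x})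
    rw [mem_ball, dist_eq_norm] at h2
    have h3 : R0 ≤ R := by rw [hR]; exact le_max_left _ _
    linarith
  have hx0 : c ≤ f x0 := hb x0 (mem_ball_self hr)
  have hM00 : 0 ≤ M0 := (h.1 x0).trans (hM0 x0)
  -- decay away from x0
  have hdec : ∀ y, f y ≤ (c + M0 * Real.exp 1) * Real.exp (-(R⁻¹ * ‖y - x0‖)) := by
    intro y
    have hexp := Real.exp_pos (-(R⁻¹ * ‖y - x0‖))
    rcases le_or_gt ‖y - x0‖ R with hle | hgt
    · have h2 : (1 : ℝ) ≤ Real.exp 1 * Real.exp (-(R⁻¹ * ‖y - x0‖)) := by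
        rw [← Real.exp_add]
        apply Real.one_le_exp
        have : R⁻¹ * ‖y - x0‖ ≤ 1 := by
          rw [inv_mul_le_iff₀ hRpos]
          linarith
        linarith
      have h3 := hM0 y
      nlinarith [mul_le_mul_of_nonneg_left h2 hM00, mul_pos hc hexp]
    · have hd : 0 < ‖y - x0‖ := hRpos.trans hgt
      obtain ⟨l, hl⟩ : ∃ l, l = R / ‖y - x0‖ := ⟨_, rfl⟩
      have hl0 : 0 < l := by rw [hl]; positivity
      have hl1 : l ≤ 1 := by rw [hl, div_le_one hd]; exact hgt.le
      have h3 := h.2 x0 y l ⟨hl0.le, hl1⟩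
      have h4 : f ((1 - l) • x0 + l • y) < c / Real.exp 1 := by
        apply hL
        have e1 : (1 - l) • x0 + l • y - x0 = l • (y - x0) := by
          rw [sub_smul, one_smul, smul_sub]
          abel
        rw [e1, norm_smul, Real.norm_eq_abs, abs_of_pos hl0, hl, div_mul_cancel₀ _ hd.ne']
      have h5 : c ^ (1 - l) * f y ^ l < c / Real.exp 1 := by
        refine lt_of_le_of_lt ?_ h4
        refine le_trans ?_ h3
        refine mul_le_mul_of_nonneg_right ?_ (Real.rpow_nonneg (h.1 y) _)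
        exact Real.rpow_le_rpow hc.le hx0 (by linarith)
      have h6 : f y ≤ c * Real.exp (-(R⁻¹ * ‖y - x0‖)) := by
        by_contra hno
        rw [not_le] at hno
        have h7 : (c * Real.exp (-(R⁻¹ * ‖y - x0‖))) ^ l ≤ f y ^ l :=
          Real.rpow_le_rpow (by positivity) hno.le hl0.le
        have h8 : (c * Real.exp (-(R⁻¹ * ‖y - x0‖))) ^ l = c ^ l * (Real.exp 1)⁻¹ := by
          rw [Real.mul_rpow hc.le hexp.le, ← Real.exp_mul, ← Real.exp_neg]
          congr 2
          rw [hl]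
          field_simp
        have h9 : c ^ (1 - l) * (c ^ l * (Real.exp 1)⁻¹) = c / Real.exp 1 := by
          rw [← mul_assoc, ← Real.rpow_add hc, sub_add_cancel, Real.rpow_one]
          rfl
        have h10 : c ^ (1 - l) * (c ^ l * (Real.exp 1)⁻¹) ≤ c ^ (1 - l) * f y ^ l := by
          rw [← h8]
          exact mul_le_mul_of_nonneg_left h7 (Real.rpow_nonneg hc.le _)
        rw [h9] at h10
        linarith
      have h11 : 0 ≤ M0 * Real.exp 1 * Real.exp (-(R⁻¹ * ‖y - x0‖)) := by positivity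
      linarith
  refine ⟨(c + M0 * Real.exp 1) * Real.exp (R⁻¹ * ‖x0‖), R⁻¹, by positivity, ?_⟩
  refine ⟨inv_pos.2 hRpos, hint.aestronglyMeasurable, h.1, fun y => ?_, ?_⟩
  · refine (hdec y).trans ?_
    rw [mul_assoc]
    refine mul_le_mul_of_nonneg_left ?_ (by positivity)
    rw [← Real.exp_add]
    apply Real.exp_le_exp.2
    have h2 : ‖y‖ ≤ ‖y - x0‖ + ‖x0‖ := by
      calc ‖y‖ = ‖(y - x0) + x0‖ := by rw [sub_add_cancel]
        _ ≤ _ := norm_add_le _ _
    have h3 := mul_le_mul_of_nonneg_left h2 (inv_pos.2 hRpos).le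
    linarith
  · exact ⟨ball x0 r, isOpen_ball, ⟨x0, mem_ball_self hr⟩, fun x hx => hc.trans_le (hb x hx)⟩

end Vale.Agent.P254.H375
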