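import Vale.Agent.P254.H375.Decay

/-!
P254, functional form (helper375), part 2: the epigraph measure of a log-concave density.
-/

open MeasureTheory Set Filter Topology Metric Matrix
open Vale.Agent.P254.R304

namespace Vale.Agent.P254.H375

/-! ### one-dimensional integrals -/

lemma pow_exp_bigO (k : ℕ) :
    (fun t : ℝ => t ^ k * Real.exp (-t)) =O[atTop] fun t => Real.exp (-(1 / 2) * t) := by
  have h1 := (isLittleO_pow_exp_pos_mul_atTop k (b := 1 / 2) (by norm_num)).isBigO
  have h2 := h1.mul (Asymptotics.isBigO_refl (fun t : ℝ => Real.exp (-t)) atTop)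
  refine h2.congr_right fun t => ?_
  rw [← Real.exp_add]
  congr 1
  ring

lemma quad_integrable (a b c s : ℝ) :
    IntegrableOn (fun t : ℝ => (a * t ^ 2 + b * t + c) * Real.exp (-t)) (Ioi s) := by
  refine integrable_of_isBigO_exp_neg (b := 1 / 2) (by norm_num) (by fun_prop) ?_
  have h0 := (pow_exp_bigO 0).const_mul_left c
  have h1 := (pow_exp_bigO 1).const_mul_left b
  have h2 := (pow_exp_bigO 2).const_mul_left a
  refine ((h2.add h1).add h0).congr_left fun t => ?_
  ring

lemma quad_integral (a b c s : ℝ) :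
    ∫ t in Ioi s, (a * t ^ 2 + b * t + c) * Real.exp (-t) =
      (a * s ^ 2 + (2 * a + b) * s + (2 * a + b + c)) * Real.exp (-s) := by
  have hd : ∀ t ∈ Ici s, HasDerivAt
      (fun t : ℝ => -((a * t ^ 2 + (2 * a + b) * t + (2 * a + b + c)) * Real.exp (-t)))
      ((a * t ^ 2 + b * t + c) * Real.exp (-t)) t := by
    intro t _
    have h1 : HasDerivAt (fun t : ℝ => a * t ^ 2 + (2 * a + b) * t + (2 * a + b + c))
        (a * (2 * t) + (2 * a + b)) t := by
      have := (((hasDerivAt_pow 2 t).const_mul a).add ((hasDerivAt_id t).const_mul (2 * a + b))).add_const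
        (2 * a + b + c)
      refine this.congr_deriv ?_
      simp
    have h2 : HasDerivAt (fun t : ℝ => Real.exp (-t)) (-Real.exp (-t)) t := by
      have := (hasDerivAt_neg t).exp
      refine this.congr_deriv ?_
      ring
    refine (h1.mul h2).neg.congr_deriv ?_
    ring
  have ht : Tendsto (fun t : ℝ => -((a * t ^ 2 + (2 * a + b) * t + (2 * a + b + c)) *
      Real.exp (-t))) atTop (𝓝 0) := by
    have h2 := (Real.tendsto_pow_mul_exp_neg_atTop_nhds_zero 2).const_mul a
    have h1 := (Real.tendsto_pow_mul_exp_neg_atTop_nhds_zero 1).const_mul (2 * a + b)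
    have h0 := (Real.tendsto_pow_mul_exp_neg_atTop_nhds_zero 0).const_mul (2 * a + b + c)
    have h3 := ((h2.add h1).add h0).neg
    simp only [mul_zero, add_zero, neg_zero] at h3
    refine h3.congr fun t => ?_
    ring
  rw [integral_Ioi_of_hasDerivAt_of_tendsto' hd (quad_integrable a b c s) ht]
  ring

/-! ### the epigraph -/

variable {n : ℕ} {f : (Fin n → ℝ) → ℝ}

/-- the epigraph of `- log f`, the extra variable is the first one -/
def EE (f : (Fin n → ℝ) → ℝ) : Set (Fin (n + 1) → ℝ) :=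
  {p | Real.exp (-(p 0)) ≤ f (fun i => p i.succ)}

/-- the linear functional `- p 0` -/
def cv (n : ℕ) : Fin (n + 1) → ℝ := fun i => if i = 0 then -1 else 0

lemma cv_dot (p : Fin (n + 1) → ℝ) : cv n ⬝ᵥ p = -(p 0) := by
  unfold cv dotProduct
  simp

/-- the density `e^{-t}` on the epigraph -/
noncomputable def GG (f : (Fin n → ℝ) → ℝ) : (Fin (n + 1) → ℝ) → ℝ :=
  limDens 0 (cv n) (closure (EE f))

lemma GG_mem {p : Fin (n + 1) → ℝ} (hp : p ∈ closure (EE f)) : GG f p = Real.exp (-(p 0)) := by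
  unfold GG limDens
  rw [indicator_of_mem hp]
  unfold tilt
  rw [cv_dot]
  simp

lemma GG_notMem {p : Fin (n + 1) → ℝ} (hp : p ∉ closure (EE f)) : GG f p = 0 := by
  unfold GG limDens
  rw [indicator_of_notMem hp]

theorem convex_EE (h : LogConcave f) : Convex ℝ (EE f) := by
  intro p hp q hq a b ha hb hab
  have ea : a = 1 - b := by linarith
  have hp' : Real.exp (-(p 0)) ≤ f (fun i => p i.succ) := hp
  have hq' : Real.exp (-(q 0)) ≤ f (fun i => q i.succ) := hq
  have h1 := h.2 (fun i => p i.succ) (fun i => q i.succ) b ⟨hb, by linarith⟩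
  change Real.exp (-((a • p + b • q) 0)) ≤ f (fun i => (a • p + b • q) i.succ)
  have e1 : (fun i : Fin n => (a • p + b • q) i.succ) =
      (1 - b) • (fun i : Fin n => p i.succ) + b • fun i : Fin n => q i.succ := by
    ext i
    simp [ea]
  rw [e1]
  refine le_trans ?_ h1
  have e2 : Real.exp (-((a • p + b • q) 0)) =
      Real.exp (-(p 0)) ^ (1 - b) * Real.exp (-(q 0)) ^ b := by
    rw [← Real.exp_mul, ← Real.exp_mul, ← Real.exp_add, ea]
    congr 1
    simp only [Pi.add_apply, Pi.smul_apply, smul_eq_mul]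
    ring
  rw [e2]
  exact mul_le_mul (Real.rpow_le_rpow (Real.exp_pos _).le hp' (by linarith))
    (Real.rpow_le_rpow (Real.exp_pos _).le hq' hb) (Real.rpow_nonneg (Real.exp_pos _).le _)
    (Real.rpow_nonneg ((Real.exp_pos _).le.trans hp') _)

theorem EE_interior (h : LogConcave f) (h1 : ∫ x, f x = 1) :
    (interior (closure (EE f))).Nonempty := by
  obtain ⟨x0, r, c, hr, hc, hb⟩ := h.exists_ball h1
  have hsub : {p : Fin (n + 1) → ℝ | -Real.log c < p 0 ∧ (fun i : Fin n => p i.succ) ∈ ball x0 r} ⊆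
      EE f := by
    rintro p ⟨hp1, hp2⟩
    refine le_trans ?_ (hb _ hp2)
    rw [← Real.le_log_iff_exp_le hc]
    linarith
  have hopen : IsOpen {p : Fin (n + 1) → ℝ | -Real.log c < p 0 ∧
      (fun i : Fin n => p i.succ) ∈ ball x0 r} := by
    refine (isOpen_lt continuous_const (continuous_apply 0)).inter ?_
    have hc2 : Continuous fun p : Fin (n + 1) → ℝ => (fun i : Fin n => p i.succ) := by fun_prop
    exact isOpen_ball.preimage hc2
  have hne : (Fin.cons (-Real.log c + 1) x0 : Fin (n + 1) → ℝ) ∈ {p : Fin (n + 1) → ℝ |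
      -Real.log c < p 0 ∧ (fun i : Fin n => p i.succ) ∈ ball x0 r} := by
    refine ⟨?_, ?_⟩
    · simp only [Fin.cons_zero]
      linarith
    · simp only [Fin.cons_succ]
      exact mem_ball_self hr
  exact ⟨_, interior_maximal (hsub.trans subset_closure) hopen hne⟩

theorem EE_growth (h : LogConcave f) (h1 : ∫ x, f x = 1) :
    ∃ a b : ℝ, 0 < a ∧ ∀ p ∈ closure (EE f), cv n ⬝ᵥ p ≤ b - a * ‖p‖ := by
  obtain ⟨M0, a0, hM0, hg⟩ := h.good h1
  obtain ⟨M, hM⟩ : ∃ M, M = max M0 1 := ⟨_, rfl⟩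
  have hM1 : 1 ≤ M := by rw [hM]; exact le_max_right _ _
  have hMpos : 0 < M := by linarith
  have hL : 0 ≤ Real.log M := Real.log_nonneg hM1
  have ha0 := hg.ha
  refine ⟨min 1 a0, 2 * Real.log M, lt_min one_pos ha0, ?_⟩
  have hcl : IsClosed {p : Fin (n + 1) → ℝ | cv n ⬝ᵥ p ≤ 2 * Real.log M - min 1 a0 * ‖p‖} := by
    have hc1 : Continuous fun p : Fin (n + 1) → ℝ => cv n ⬝ᵥ p := by
      have e : (fun p : Fin (n + 1) → ℝ => cv n ⬝ᵥ p) = fun p => -(p 0) := funext cv_dot
      rw [e]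
      fun_prop
    exact isClosed_le hc1 (by fun_prop)
  refine fun p hp => closure_minimal (fun p hp => ?_) hcl hp
  have hp' : Real.exp (-(p 0)) ≤ f (fun i => p i.succ) := hp
  have h2 := hp'.trans (hg.le _)
  have h3 : Real.exp (-(p 0)) ≤ Real.exp (Real.log M - a0 * ‖fun i : Fin n => p i.succ‖) := by
    refine h2.trans ?_
    rw [sub_eq_add_neg, Real.exp_add, Real.exp_log hMpos]
    refine mul_le_mul_of_nonneg_right ?_ (Real.exp_pos _).le
    rw [hM]; exact le_max_left _ _
  rw [Real.exp_le_exp] at h3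
  have hx0 : 0 ≤ ‖fun i : Fin n => p i.succ‖ := norm_nonneg _
  have hp0 : -Real.log M ≤ p 0 := by
    have : 0 ≤ a0 * ‖fun i : Fin n => p i.succ‖ := by positivity
    linarith
  change cv n ⬝ᵥ p ≤ 2 * Real.log M - min 1 a0 * ‖p‖
  rw [cv_dot]
  have hmin : 0 ≤ min 1 a0 := (lt_min one_pos ha0).le
  suffices hs : min 1 a0 * ‖p‖ ≤ p 0 + 2 * Real.log M by linarith
  rcases hmin.eq_or_lt with h0 | h0
  · rw [← h0, zero_mul]
    linarith
  · rw [← le_div_iff₀' h0]
    have hnn : 0 ≤ p 0 + 2 * Real.log M := by linarith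
    rw [pi_norm_le_iff_of_nonneg (div_nonneg hnn hmin)]
    intro i
    rw [le_div_iff₀' h0]
    refine Fin.cases ?_ (fun j => ?_) i
    · have h4 : ‖p 0‖ ≤ p 0 + 2 * Real.log M := by
        rw [Real.norm_eq_abs, abs_le]
        constructor <;> linarith
      calc min 1 a0 * ‖p 0‖ ≤ 1 * ‖p 0‖ :=
            mul_le_mul_of_nonneg_right (min_le_left _ _) (norm_nonneg _)
        _ ≤ _ := by rw [one_mul]; exact h4
    · have h4 : ‖p j.succ‖ ≤ ‖fun i : Fin n => p i.succ‖ :=
        norm_le_pi_norm (fun i : Fin n => p i.succ) j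
      calc min 1 a0 * ‖p j.succ‖ ≤ a0 * ‖fun i : Fin n => p i.succ‖ :=
            mul_le_mul (min_le_right _ _) h4 (norm_nonneg _) ha0.le
        _ ≤ _ := by linarith

theorem GG_good (h : LogConcave f) (h1 : ∫ x, f x = 1) : ∃ M a : ℝ, 0 ≤ M ∧ Good (GG f) M a := by
  obtain ⟨a, b, ha, hab⟩ := EE_growth h h1
  exact ⟨Real.exp b, a, (Real.exp_pos b).le,
    good_limDens Matrix.PosSemidef.zero isClosed_closure (EE_interior h h1) ha hab⟩

theorem DD_GG {δ : ℝ} (hN : X.Loss.NiceDDL δ (n + 1)) (h : LogConcave f) (h1 : ∫ x, f x = 1) :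
    -(δ * ((n : ℝ) + 1)) ≤ DD (GG f) := by
  obtain ⟨a, b, ha, hab⟩ := EE_growth h h1
  have h2 := X.Loss.DD_limDens_loss hN Matrix.PosSemidef.zero isClosed_closure
    (convex_EE h).closure (EE_interior h h1) ha hab
  push_cast at h2
  exact h2

/-! ### Fubini -/

/-- `(x, t) ↦ (t, x)` as a measurable equivalence onto `ℝ^{n+1}` -/
noncomputable def psi (n : ℕ) : ((Fin n → ℝ) × ℝ) ≃ᵐ (Fin (n + 1) → ℝ) :=
  MeasurableEquiv.prodComm.trans (MeasurableEquiv.piFinSuccAbove (fun _ : Fin (n + 1) => ℝ) 0).symm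

lemma psi_apply (z : (Fin n → ℝ) × ℝ) : psi n z = Fin.cons z.2 z.1 := by
  simp [psi, MeasurableEquiv.piFinSuccAbove, Fin.insertNthEquiv]
  exact ⟨rfl, rfl⟩

lemma psi_mp (n : ℕ) : MeasurePreserving (psi n) := by
  have h1 := (volume_preserving_piFinSuccAbove (fun _ : Fin (n + 1) => ℝ) 0).symm
  exact h1.comp Measure.measurePreserving_swap

lemma GG_ae (h : LogConcave f) :
    ∀ᵐ p : Fin (n + 1) → ℝ, GG f p =
      if Real.exp (-(p 0)) ≤ f (fun i => p i.succ) then Real.exp (-(p 0)) else 0 := by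
  have h0 : ∀ᵐ p ∂(volume : Measure (Fin (n + 1) → ℝ)), p ∉ frontier (EE f) := by
    rw [ae_iff]
    simpa using (convex_EE h).addHaar_frontier volume
  filter_upwards [h0] with p hp
  by_cases hpE : p ∈ EE f
  · have hpE' : Real.exp (-(p 0)) ≤ f (fun i => p i.succ) := hpE
    rw [GG_mem (subset_closure hpE), if_pos hpE']
  · have h2 : p ∉ closure (EE f) := by
      intro hc
      exact hp ⟨hc, fun hi => hpE (interior_subset hi)⟩
    have hpE' : ¬ Real.exp (-(p 0)) ≤ f (fun i => p i.succ) := hpE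
    rw [GG_notMem h2, if_neg hpE']

/-- the inner integral -/
noncomputable def JJ (f : (Fin n → ℝ) → ℝ) (q : (Fin (n + 1) → ℝ) → ℝ) (x : Fin n → ℝ) : ℝ :=
  if 0 < f x then ∫ t in Ioi (-Real.log (f x)), q (Fin.cons t x) * Real.exp (-t) else 0

theorem integral_GG (h : LogConcave f) (h1 : ∫ x, f x = 1) {q : (Fin (n + 1) → ℝ) → ℝ}
    (hq : PolyGrowth q) :
    Integrable (JJ f q) ∧ ∫ p, q p * GG f p = ∫ x, JJ f q x := by
  obtain ⟨M, a, -, hg⟩ := GG_good h h1
  have hint := hg.int hq
  have hmp := psi_mp n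
  have hint2 : Integrable (fun z => q (psi n z) * GG f (psi n z))
      ((volume : Measure (Fin n → ℝ)).prod (volume : Measure ℝ)) :=
    (hmp.integrable_comp_emb (psi n).measurableEmbedding).2 hint
  have hae : ∀ᵐ z ∂((volume : Measure (Fin n → ℝ)).prod (volume : Measure ℝ)),
      GG f (psi n z) = if Real.exp (-((psi n z) 0)) ≤ f (fun i => (psi n z) i.succ)
        then Real.exp (-((psi n z) 0)) else 0 := hmp.quasiMeasurePreserving.ae (GG_ae h)
  have hsec := Measure.ae_ae_of_ae_prod hae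
  have hJ : ∀ᵐ x : Fin n → ℝ, ∫ t, q (psi n (x, t)) * GG f (psi n (x, t)) = JJ f q x := by
    filter_upwards [hsec] with x hx
    have e1 : ∫ t, q (psi n (x, t)) * GG f (psi n (x, t)) =
        ∫ t, q (Fin.cons t x) * (if Real.exp (-t) ≤ f x then Real.exp (-t) else 0) := by
      refine integral_congr_ae ?_
      filter_upwards [hx] with t ht
      rw [ht, psi_apply]
      simp only [Fin.cons_zero, Fin.cons_succ]
    rw [e1]
    unfold JJ
    by_cases hf : 0 < f x
    · rw [if_pos hf, ← integral_Ici_eq_integral_Ioi, ← integral_indicator measurableSet_Ici]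
      congr 1
      ext t
      by_cases ht : -Real.log (f x) ≤ t
      · have h3 : Real.exp (-t) ≤ f x := by
          rw [← Real.le_log_iff_exp_le hf]
          linarith
        rw [if_pos h3, indicator_of_mem (mem_Ici.2 ht)]
      · have h3 : ¬ Real.exp (-t) ≤ f x := by
          rw [← Real.le_log_iff_exp_le hf]
          intro h4
          exact ht (by linarith)
        rw [if_neg h3, indicator_of_notMem (fun h5 => ht (mem_Ici.1 h5)), mul_zero]
    · rw [if_neg hf]
      have h3 : ∀ t, ¬ Real.exp (-t) ≤ f x := fun t h4 => hf ((Real.exp_pos _).trans_le h4)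
      simp only [h3, if_false, mul_zero, integral_zero]
  refine ⟨hint2.integral_prod_left.congr hJ, ?_⟩
  rw [← hmp.integral_comp' (g := fun p => q p * GG f p)]
  have e2 : ∫ z, q (psi n z) * GG f (psi n z) =
      ∫ x, ∫ t, q (psi n (x, t)) * GG f (psi n (x, t)) := by
    have := integral_prod _ hint2
    exact this
  rw [e2]
  exact integral_congr_ae hJ

end Vale.Agent.P254.H375
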