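import Vale.Agent.P254.H375.Sup
import Vale.Agent.P254.Bdl.B19

/-!
P254, functional form (helper375): the unconditional statements with the loss `δ = 19/100`.
-/

open MeasureTheory Set Matrix
open Vale.Agent.P254.R304

namespace Vale.Agent.P254.H375

theorem niceDDL_019 (n : ℕ) : X.Loss.NiceDDL (19 / 100) n :=
  (X.Top.niceFrL St625.W833.wp
    (S5.N710.stmtNice_of (X.Chain.stmtStatic_of_sc
      (Vale.Agent.P227.M.HL.stmtSC_of_heat Vale.Agent.P227.M.SC.stmtHeat))) n).niceDDL

/-- every log-concave density: finite entropy, positive definite covariance, near-sharp entropic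
and functional slicing inequalities -/
theorem lc_019 {n : ℕ} {f : (Fin n → ℝ) → ℝ} (h : LogConcave f) (h1 : ∫ x, f x = 1) :
    (Integrable fun x => f x * Real.log (f x)) ∧ (cov f).PosDef ∧
      81 / 100 * (n : ℝ) + 1 / 2 * Real.log (cov f).det ≤ entropy f ∧
      ∀ x, f x * Real.sqrt (cov f).det ≤ Real.exp (19 / 100 * n) := by
  refine ⟨integrable_flog h h1, cov_posDef h h1, ?_, fun x => sup_le niceDDL_019 h h1 x⟩
  have := entropy_ge niceDDL_019 h h1
  linarith

end Vale.Agent.P254.H375
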