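import Vale.Agent.P254.H375.KM

/-!
P254, functional form (helper375), part 9: `M → ∞` in the bodies `K_M`.
-/

open MeasureTheory Set Filter Topology Metric Matrix
open Vale.Agent.P254.R304 (PolyGrowth pg_one pg_coord pg_coord2)

namespace Vale.Agent.P254.H375

open Vale.Agent.P254.FV (Dn simpC simpC_pos)

variable {n : ℕ} {f : (Fin n → ℝ) → ℝ}

lemma ev_AM {x : Fin n → ℝ} (hx : 0 < f x) : ∀ᶠ M : ℕ in atTop, x ∈ AM f M := by
  have h1 : Tendsto (fun M : ℕ => Real.exp (-(M : ℝ))) atTop (𝓝 0) :=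
    Real.tendsto_exp_neg_atTop_nhds_zero.comp tendsto_natCast_atTop_atTop
  exact h1.eventually_lt_const hx

lemma notMem_AM {x : Fin n → ℝ} (hx : ¬ 0 < f x) (M : ℕ) : x ∉ AM f M :=
  fun h' => hx (AM_pos h')

lemma gM_pow_le {M : ℕ} (hM : 1 ≤ M) {x : Fin n → ℝ} (hx : x ∈ AM f M) :
    gM f M x ^ M ≤ f x := by
  have h0 : (0 : ℝ) < M := by exact_mod_cast hM
  have h1 : gM f M x ≤ Real.exp (Real.log (f x) / M) := by
    unfold gM
    linarith [Real.add_one_le_exp (Real.log (f x) / M)]
  calc gM f M x ^ M ≤ Real.exp (Real.log (f x) / M) ^ M :=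
        pow_le_pow_left₀ (gM_pos hM hx).le h1 M
    _ = f x := by
        rw [← Real.exp_nat_mul, mul_div_cancel₀ _ h0.ne', Real.exp_log (AM_pos hx)]

lemma tendsto_gM_pow {x : Fin n → ℝ} (hx : 0 < f x) :
    Tendsto (fun M : ℕ => gM f M x ^ M) atTop (𝓝 (f x)) := by
  have h1 := Real.tendsto_one_add_div_pow_exp (Real.log (f x))
  rwa [Real.exp_log hx] at h1

lemma nm_AM (h : LogConcave f) (M : ℕ) : NullMeasurableSet (AM f M) :=
  (convex_AM h M).nullMeasurableSet _

lemma meas_f (h1 : ∫ x, f x = 1) : AEStronglyMeasurable f volume := (integrable_of_one h1).1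

lemma meas_log (h1 : ∫ x, f x = 1) : AEStronglyMeasurable (fun x => Real.log (f x)) volume :=
  (Real.measurable_log.comp_aemeasurable (meas_f h1).aemeasurable).aestronglyMeasurable

lemma meas_gM (h1 : ∫ x, f x = 1) (M k : ℕ) :
    AEStronglyMeasurable (fun x => gM f M x ^ k) volume := by
  have h2 := (meas_log h1).aemeasurable
  unfold gM
  exact (((h2.div_const _).const_add _).pow_const k).aestronglyMeasurable

section

variable (h : LogConcave f) (h1 : ∫ x, f x = 1)

include h h1

/-- dominated convergence for `c_M(x) g^M` on the base -/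
lemma tendsto_base {q : (Fin n → ℝ) → ℝ} {c : ℕ → (Fin n → ℝ) → ℝ} {B : ℝ} (hB : 0 ≤ B)
    (hq : ∀ M, AEStronglyMeasurable (c M) volume) (hqi : Integrable fun x => q x * f x)
    (hb : ∀ᶠ M : ℕ in atTop, ∀ x ∈ AM f M, ‖c M x‖ ≤ B * ‖q x‖)
    (hlim : ∀ x, 0 < f x → Tendsto (fun M => c M x) atTop (𝓝 (q x))) :
    (∀ᶠ M : ℕ in atTop, IntegrableOn (fun x => c M x * gM f M x ^ M) (AM f M)) ∧
    Tendsto (fun M => ∫ x in AM f M, c M x * gM f M x ^ M) atTop (𝓝 (∫ x, q x * f x)) := by
  have hmeas : ∀ M : ℕ, AEStronglyMeasurable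
      ((AM f M).indicator fun x => c M x * gM f M x ^ M) volume := by
    intro M
    exact ((hq M).mul (meas_gM h1 M M)).indicator₀ (nm_AM h M)
  have hbd : ∀ᶠ M : ℕ in atTop, ∀ᵐ x ∂(volume : Measure (Fin n → ℝ)),
      ‖(AM f M).indicator (fun x => c M x * gM f M x ^ M) x‖ ≤ B * ‖q x * f x‖ := by
    filter_upwards [hb, eventually_ge_atTop 1] with M hM hM1
    refine ae_of_all _ fun x => ?_
    by_cases hx : x ∈ AM f M
    · have h2 := hM x hx
      have h3 := gM_pow_le hM1 hx
      have h4 : 0 ≤ gM f M x ^ M := pow_nonneg (gM_pos hM1 hx).le _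
      rw [indicator_of_mem hx, norm_mul, norm_mul, Real.norm_of_nonneg h4,
        Real.norm_of_nonneg (h.1 x)]
      calc ‖c M x‖ * gM f M x ^ M ≤ (B * ‖q x‖) * f x :=
            mul_le_mul h2 h3 h4 ((norm_nonneg _).trans h2)
        _ = _ := by ring
    · rw [indicator_of_notMem hx, norm_zero]
      positivity
  have hbi : Integrable fun x => B * ‖q x * f x‖ := hqi.norm.const_mul B
  constructor
  · filter_upwards [hbd] with M hM
    have h2 : Integrable ((AM f M).indicator fun x => c M x * gM f M x ^ M) :=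
      hbi.mono' (hmeas M) hM
    refine h2.integrableOn.congr ?_
    filter_upwards [ae_restrict_mem₀ (nm_AM h M)] with x hx
    rw [indicator_of_mem hx]
  · simp_rw [← integral_indicator₀ (nm_AM h _)]
    refine tendsto_integral_filter_of_dominated_convergence _ (Eventually.of_forall hmeas) hbd hbi
      (ae_of_all _ fun x => ?_)
    by_cases hx : 0 < f x
    · have h2 := (hlim x hx).mul (tendsto_gM_pow hx)
      refine h2.congr' ?_
      filter_upwards [ev_AM hx] with M hM
      rw [indicator_of_mem hM]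
    · have h0 : f x = 0 := le_antisymm (not_lt.1 hx) (h.1 x)
      rw [h0, mul_zero]
      refine tendsto_const_nhds.congr fun M => ?_
      rw [indicator_of_notMem (notMem_AM hx M)]

lemma tendsto_pg {q : (Fin n → ℝ) → ℝ} (hq : PolyGrowth q) :
    (∀ᶠ M : ℕ in atTop, IntegrableOn (fun x => q x * gM f M x ^ M) (AM f M)) ∧
    Tendsto (fun M => ∫ x in AM f M, q x * gM f M x ^ M) atTop (𝓝 (∫ x, q x * f x)) := by
  obtain ⟨C, a, -, hg⟩ := h.good h1
  exact tendsto_base h h1 zero_le_one (c := fun _ => q) (fun _ => hq.1) (hg.int hq)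
    (Eventually.of_forall fun M x _ => by rw [one_mul]) fun x _ => tendsto_const_nhds

lemma tendsto_I0 : (∀ᶠ M : ℕ in atTop, IntegrableOn (fun x => gM f M x ^ M) (AM f M)) ∧
    Tendsto (fun M => I0 f M) atTop (𝓝 1) := by
  have h2 := tendsto_pg h h1 (pg_one (n := n))
  simp only [one_mul] at h2
  rw [h1] at h2
  exact h2

lemma tendsto_th :
    (∀ᶠ M : ℕ in atTop, IntegrableOn (fun x => (2 * Real.log (f x) + Real.log (f x) ^ 2 / M) *
      gM f M x ^ M) (AM f M)) ∧
    Tendsto (fun M : ℕ => ∫ x in AM f M, (2 * Real.log (f x) + Real.log (f x) ^ 2 / M) *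
      gM f M x ^ M) atTop (𝓝 (-(2 * entropy f))) := by
  obtain ⟨C, hC⟩ := h.exists_upper h1
  obtain ⟨C', hC'⟩ : ∃ C', C' = max C 1 := ⟨_, rfl⟩
  have hC1 : 1 ≤ C' := by rw [hC']; exact le_max_right _ _
  have hL := Real.log_nonneg hC1
  have hle : ∀ x, f x ≤ C' := fun x => (hC x).trans (by rw [hC']; exact le_max_left _ _)
  have hi : Integrable fun x => 2 * Real.log (f x) * f x := by
    refine ((integrable_flog h h1).const_mul 2).congr (ae_of_all _ fun x => ?_)
    simp only
    ring
  have h2 := tendsto_base h h1 (q := fun x => 2 * Real.log (f x))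
    (c := fun M x => 2 * Real.log (f x) + Real.log (f x) ^ 2 / M) (B := 2 + Real.log C')
    (by linarith) (fun M => ?_) hi ?_ ?_
  · refine ⟨h2.1, ?_⟩
    have e : ∫ x, 2 * Real.log (f x) * f x = -(2 * entropy f) := by
      unfold entropy
      rw [mul_neg, neg_neg, ← integral_const_mul]
      congr 1
      ext x
      ring
    rw [← e]
    exact h2.2
  · have h3 := (meas_log h1).aemeasurable
    exact ((h3.const_mul 2).add ((h3.pow_const 2).div_const _)).aestronglyMeasurable
  · filter_upwards [eventually_ge_atTop 1] with M hM x hx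
    have h0 : (0 : ℝ) < M := by exact_mod_cast hM
    have hM1 : (1 : ℝ) ≤ M := by exact_mod_cast hM
    have h3 : -(M : ℝ) < Real.log (f x) := (Real.lt_log_iff_exp_lt (AM_pos hx)).2 hx
    have h4 : Real.log (f x) ≤ Real.log C' := Real.log_le_log (AM_pos hx) (hle x)
    have h5 : |Real.log (f x)| / M ≤ 1 + Real.log C' := by
      rw [div_le_iff₀ h0, abs_le]
      constructor <;> nlinarith
    have h6 : 0 ≤ |Real.log (f x)| := abs_nonneg _
    rw [Real.norm_eq_abs, Real.norm_eq_abs, abs_mul, abs_of_pos (two_pos : (0 : ℝ) < 2)]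
    calc |2 * Real.log (f x) + Real.log (f x) ^ 2 / M|
        ≤ |2 * Real.log (f x)| + |Real.log (f x) ^ 2 / M| := abs_add_le _ _
      _ = 2 * |Real.log (f x)| + |Real.log (f x)| * (|Real.log (f x)| / M) := by
          rw [abs_mul, abs_of_pos (two_pos : (0 : ℝ) < 2), abs_div, abs_of_pos h0, abs_pow]
          ring
      _ ≤ 2 * |Real.log (f x)| + |Real.log (f x)| * (1 + Real.log C') := by
          have := mul_le_mul_of_nonneg_left h5 h6
          linarith
      _ ≤ (2 + Real.log C') * (2 * |Real.log (f x)|) := by nlinarith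
  · intro x _
    have h3 : Tendsto (fun M : ℕ => Real.log (f x) ^ 2 / (M : ℝ)) atTop (𝓝 0) :=
      tendsto_const_nhds.div_atTop tendsto_natCast_atTop_atTop
    simpa using h3.const_add (2 * Real.log (f x))

lemma I2_eq : ∀ᶠ M : ℕ in atTop, I2 f M = I0 f M + (∫ x in AM f M,
    (2 * Real.log (f x) + Real.log (f x) ^ 2 / M) * gM f M x ^ M) / M := by
  filter_upwards [(tendsto_I0 h h1).1, (tendsto_th h h1).1, eventually_ge_atTop 1] with M h2 h3 hM
  have h0 : (0 : ℝ) < M := by exact_mod_cast hM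
  unfold I2 I0
  rw [← integral_div, ← integral_add h2 (h3.div_const _)]
  congr 1
  ext x
  have e : gM f M x ^ 2 = 1 + (2 * Real.log (f x) + Real.log (f x) ^ 2 / M) / M := by
    unfold gM
    field_simp
    ring
  rw [pow_add, e]
  ring

lemma tendsto_ratio :
    Tendsto (fun M : ℕ => (I2 f M / I0 f M) ^ M) atTop (𝓝 (Real.exp (-(2 * entropy f)))) := by
  have h2 := (tendsto_I0 h h1).2
  have h3 : Tendsto (fun M : ℕ => (∫ x in AM f M,
      (2 * Real.log (f x) + Real.log (f x) ^ 2 / M) * gM f M x ^ M) / I0 f M) atTop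
      (𝓝 (-(2 * entropy f))) := by
    have := (tendsto_th h h1).2.div h2 one_ne_zero
    rwa [div_one] at this
  have h4 : Tendsto (fun M : ℕ => (M : ℝ) * (I2 f M / I0 f M - 1)) atTop
      (𝓝 (-(2 * entropy f))) := by
    refine h3.congr' ?_
    filter_upwards [I2_eq h h1, eventually_ge_atTop 1,
      h2.eventually_ne one_ne_zero] with M h5 hM h6
    have h0 : (M : ℝ) ≠ 0 := by
      have : (0 : ℝ) < M := by exact_mod_cast hM
      exact this.ne'
    rw [h5]
    field_simp
    ring
  have h5 := Real.tendsto_one_add_pow_exp_of_tendsto h4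
  refine h5.congr fun M => ?_
  congr 1
  ring

lemma tendsto_CM : Tendsto (fun M : ℕ => (CM f M).det) atTop (𝓝 (cov f).det) := by
  have h2 := (tendsto_I0 h h1).2.inv₀ one_ne_zero
  rw [inv_one] at h2
  have h3 : Tendsto (fun M : ℕ => CM f M) atTop (𝓝 (cov f)) := by
    refine tendsto_pi_nhds.2 fun i => tendsto_pi_nhds.2 fun j => ?_
    have e1 := (tendsto_pg h h1 (pg_coord2 i j)).2
    have e2 := (tendsto_pg h h1 (pg_coord i)).2
    have e3 := (tendsto_pg h h1 (pg_coord j)).2
    have e4 := (h2.mul e1).sub ((h2.mul e2).mul (h2.mul e3))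
    simp only [one_mul] at e4
    exact e4
  exact (continuous_id.matrix_det.tendsto (cov f)).comp h3

/-- if all the bodies `K_M` satisfy the conjecture, then `f` satisfies the sharp inequality -/
theorem sharp_of_bodies (hb : ∀ᶠ M : ℕ in atTop, IsConvexBody (KM f M) →
      Dn (KM f M) ≤ simpC (n + M)) :
    (cov f).det * Real.exp (-(2 * entropy f)) ≤ Real.exp (-(2 * n)) := by
  have h2 := (tendsto_I0 h h1).2
  have h3 := ((tendsto_CM h h1).mul (tendsto_ratio h h1)).div (h2.pow 2) (by norm_num)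
  rw [one_pow, div_one] at h3
  refine le_of_tendsto_of_tendsto h3 (tendsto_simpC n) ?_
  filter_upwards [hb, eventually_ge_atTop 1, h2.eventually_const_lt one_pos] with M h4 hM h5
  have h6 := h4 (body_KM hM h h1 h5)
  rw [Dn_KM hM h h1 h5] at h6
  rw [le_div_iff₀ (simpC_pos M)]
  exact h6

theorem entropy_ge_of_bodies (hb : ∀ᶠ M : ℕ in atTop, IsConvexBody (KM f M) →
      Dn (KM f M) ≤ simpC (n + M)) :
    (n : ℝ) + 1 / 2 * Real.log (cov f).det ≤ entropy f := by
  have h2 := sharp_of_bodies h h1 hb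
  have hd := (cov_posDef h h1).det_pos
  have h3 := Real.log_le_log (mul_pos hd (Real.exp_pos _)) h2
  rw [Real.log_mul hd.ne' (Real.exp_pos _).ne', Real.log_exp, Real.log_exp] at h3
  linarith

end

end Vale.Agent.P254.H375
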