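import Vale.Agent.P254.H375.KSimp
import Vale.Agent.P254.H375.Sup

/-!
P254, functional form (helper375), part 8: the bodies `K_M ⊆ ℝ^{n+M}` of a log-concave density with
simplices as fibres, and their moments.
-/

open MeasureTheory Set Filter Topology Metric Matrix
open scoped Pointwise

namespace Vale.Agent.P254.H375

open Vale.Agent.P254.FV (Dn simpC simpC_pos Dn_stdS vol_pos body_of_vol glue glue_left glue_right
  glue_mp)

variable {n M : ℕ} {f : (Fin n → ℝ) → ℝ}

/-- the size of the fibre -/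
noncomputable def gM (f : (Fin n → ℝ) → ℝ) (M : ℕ) (x : Fin n → ℝ) : ℝ :=
  1 + Real.log (f x) / M

/-- the base -/
def AM (f : (Fin n → ℝ) → ℝ) (M : ℕ) : Set (Fin n → ℝ) := {x | Real.exp (-(M : ℝ)) < f x}

/-- the set `{(x, y) : y ∈ g(x) Δ}` -/
def BB (f : (Fin n → ℝ) → ℝ) (M : ℕ) : Set ((Fin n → ℝ) × (Fin M → ℝ)) :=
  {w | w.1 ∈ AM f M ∧ (∀ i, -(gM f M w.1) ≤ w.2 i) ∧ ∑ i, w.2 i ≤ gM f M w.1}

/-- the same set in `ℝ^{n+M}` -/
def BS (f : (Fin n → ℝ) → ℝ) (M : ℕ) : Set (Fin (n + M) → ℝ) :=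
  {z | ((fun i => z (Fin.castAdd M i)), fun j => z (Fin.natAdd n j)) ∈ BB f M}

lemma AM_pos {x : Fin n → ℝ} (hx : x ∈ AM f M) : 0 < f x := (Real.exp_pos _).trans hx

lemma gM_pos (hM : 1 ≤ M) {x : Fin n → ℝ} (hx : x ∈ AM f M) : 0 < gM f M x := by
  have h0 : (0 : ℝ) < M := by exact_mod_cast hM
  have h1 : -(M : ℝ) < Real.log (f x) := (Real.lt_log_iff_exp_lt (AM_pos hx)).2 hx
  unfold gM
  have h2 : -1 < Real.log (f x) / M := by
    rw [lt_div_iff₀ h0]
    linarith
  linarith

lemma LogConcave.log_ge (h : LogConcave f) {x y : Fin n → ℝ} (hx : 0 < f x) (hy : 0 < f y)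
    {a b : ℝ} (ha : 0 ≤ a) (hb : 0 ≤ b) (hab : a + b = 1) :
    a * Real.log (f x) + b * Real.log (f y) ≤ Real.log (f (a • x + b • y)) := by
  have ea : a = 1 - b := by linarith
  have h2 := h.2 x y b ⟨hb, by linarith⟩
  rw [← ea] at h2
  have h3 := Real.log_le_log (mul_pos (Real.rpow_pos_of_pos hx _) (Real.rpow_pos_of_pos hy _)) h2
  rwa [Real.log_mul (Real.rpow_pos_of_pos hx _).ne' (Real.rpow_pos_of_pos hy _).ne',
    Real.log_rpow hx, Real.log_rpow hy] at h3

lemma convex_AM (h : LogConcave f) (M : ℕ) : Convex ℝ (AM f M) := by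
  intro x hx y hy a b ha hb hab
  have hx' : Real.exp (-(M : ℝ)) < f x := hx
  have hy' : Real.exp (-(M : ℝ)) < f y := hy
  have h1 := lt_min hx' hy'
  exact h1.trans_le (h.level ((Real.exp_pos _).trans h1) (min_le_left (f x) (f y))
    (min_le_right (f x) (f y)) ha hb hab)

lemma convex_BB (hM : 1 ≤ M) (h : LogConcave f) : Convex ℝ (BB f M) := by
  rintro ⟨x, y⟩ ⟨hx, h1, h2⟩ ⟨x', y'⟩ ⟨hx', h1', h2'⟩ a b ha hb hab
  simp only at hx hx' h1 h2 h1' h2'
  have hg : a * gM f M x + b * gM f M x' ≤ gM f M (a • x + b • x') := by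
    have h3 := h.log_ge (AM_pos hx) (AM_pos hx') ha hb hab
    have h0 : (0 : ℝ) < M := by exact_mod_cast hM
    unfold gM
    have h4 : (a * Real.log (f x) + b * Real.log (f x')) / M ≤
        Real.log (f (a • x + b • x')) / M := div_le_div_of_nonneg_right h3 h0.le
    have e : a * (1 + Real.log (f x) / M) + b * (1 + Real.log (f x') / M) =
        1 + (a * Real.log (f x) + b * Real.log (f x')) / M := by
      field_simp
      linear_combination (M : ℝ) * hab
    rw [e]
    linarith
  refine ⟨convex_AM h M hx hx' ha hb hab, fun i => ?_, ?_⟩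
  · have e : (a • (x, y) + b • (x', y')).2 i = a * y i + b * y' i := rfl
    have e2 : (a • (x, y) + b • (x', y')).1 = a • x + b • x' := rfl
    rw [e, e2]
    have := mul_le_mul_of_nonneg_left (h1 i) ha
    have := mul_le_mul_of_nonneg_left (h1' i) hb
    linarith
  · have e : ∑ i, (a • (x, y) + b • (x', y')).2 i = a * ∑ i, y i + b * ∑ i, y' i := by
      rw [Finset.mul_sum, Finset.mul_sum, ← Finset.sum_add_distrib]
      rfl
    have e2 : (a • (x, y) + b • (x', y')).1 = a • x + b • x' := rfl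
    rw [e, e2]
    have := mul_le_mul_of_nonneg_left h2 ha
    have := mul_le_mul_of_nonneg_left h2' hb
    linarith

lemma convex_BS (hM : 1 ≤ M) (h : LogConcave f) : Convex ℝ (BS f M) := by
  intro z hz z' hz' a b ha hb hab
  exact convex_BB hM h hz hz' ha hb hab

lemma preimage_BS : glue n M ⁻¹' BS f M = BB f M := by
  ext w
  simp only [mem_preimage, BS, mem_ofPred_eq, glue_left, glue_right]

lemma bounded_BS (hM : 1 ≤ M) (h : LogConcave f) (h1 : ∫ x, f x = 1) :
    Bornology.IsBounded (BS f M) := by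
  obtain ⟨C, a, hC, hg⟩ := h.good h1
  have h0 : (0 : ℝ) < M := by exact_mod_cast hM
  have hM1 : (1 : ℝ) ≤ M := by exact_mod_cast hM
  have ha := hg.ha
  obtain ⟨C', hC'⟩ : ∃ C', C' = max C 1 := ⟨_, rfl⟩
  have hC1 : 1 ≤ C' := by rw [hC']; exact le_max_right _ _
  have hL := Real.log_nonneg hC1
  have hle : ∀ x, f x ≤ C' * Real.exp (-(a * ‖x‖)) := fun x => (hg.le x).trans
    (mul_le_mul_of_nonneg_right (by rw [hC']; exact le_max_left _ _) (Real.exp_pos _).le)
  have hlog : ∀ x ∈ AM f M, -(M : ℝ) < Real.log (f x) ∧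
      Real.log (f x) ≤ Real.log C' - a * ‖x‖ := by
    intro x hx
    refine ⟨(Real.lt_log_iff_exp_lt (AM_pos hx)).2 hx, ?_⟩
    have h3 := Real.log_le_log (AM_pos hx) (hle x)
    rwa [Real.log_mul (by linarith) (Real.exp_pos _).ne', Real.log_exp, ← sub_eq_add_neg] at h3
  obtain ⟨G, hG⟩ : ∃ G, G = 1 + Real.log C' := ⟨_, rfl⟩
  have hG0 : 0 ≤ G := by rw [hG]; linarith
  have hgG : ∀ x ∈ AM f M, gM f M x ≤ G := by
    intro x hx
    have h3 := (hlog x hx).2
    have h4 : 0 ≤ a * ‖x‖ := by positivity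
    unfold gM
    rw [hG]
    have h5 : Real.log (f x) / M ≤ Real.log C' / M := div_le_div_of_nonneg_right (by linarith) h0.le
    have h6 : Real.log C' / M ≤ Real.log C' := div_le_self hL hM1
    linarith
  rw [Metric.isBounded_iff_subset_closedBall 0]
  refine ⟨max (((M : ℝ) + Real.log C') / a) (((M : ℝ) + 1) * G), fun z hz => ?_⟩
  obtain ⟨hx, h2, h3⟩ := hz
  simp only at hx h2 h3
  rw [mem_closedBall_zero_iff, pi_norm_le_iff_of_nonneg (le_max_of_le_right (by positivity))]
  intro i
  refine Fin.addCases (fun j => ?_) (fun j => ?_) i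
  · refine le_max_of_le_left ?_
    have h4 := hlog _ hx
    have h5 : ‖z (Fin.castAdd M j)‖ ≤ ‖fun i => z (Fin.castAdd M i)‖ :=
      norm_le_pi_norm (fun i => z (Fin.castAdd M i)) j
    refine h5.trans ?_
    rw [le_div_iff₀ ha]
    linarith [h4.1, h4.2]
  · refine le_max_of_le_right ?_
    have h4 := hgG _ hx
    have h5 : ∀ i, -G ≤ z (Fin.natAdd n i) := fun i => by linarith [h2 i]
    have h6 : z (Fin.natAdd n j) = (∑ i, z (Fin.natAdd n i)) -
        ∑ i ∈ Finset.univ.erase j, z (Fin.natAdd n i) := by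
      rw [← Finset.add_sum_erase Finset.univ _ (Finset.mem_univ j)]
      ring
    have h7 : ∑ i ∈ Finset.univ.erase j, (-G) ≤ ∑ i ∈ Finset.univ.erase j, z (Fin.natAdd n i) :=
      Finset.sum_le_sum fun i _ => h5 i
    rw [Finset.sum_const, Finset.card_erase_of_mem (Finset.mem_univ j), Finset.card_univ,
      Fintype.card_fin, nsmul_eq_mul, Nat.cast_sub hM] at h7
    rw [Real.norm_eq_abs, abs_le]
    constructor
    · have := h5 j
      nlinarith
    · push_cast at h7
      nlinarith

/-- the body `K_M` -/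
def KM (f : (Fin n → ℝ) → ℝ) (M : ℕ) : Set (Fin (n + M) → ℝ) := closure (BS f M)

lemma convex_KM (hM : 1 ≤ M) (h : LogConcave f) : Convex ℝ (KM f M) := (convex_BS hM h).closure

lemma isCompact_KM (hM : 1 ≤ M) (h : LogConcave f) (h1 : ∫ x, f x = 1) : IsCompact (KM f M) :=
  (bounded_BS hM h h1).isCompact_closure

lemma KM_ae (hM : 1 ≤ M) (h : LogConcave f) : KM f M =ᵐ[volume] BS f M :=
  closure_ae_eq_of_null_frontier ((convex_BS hM h).addHaar_frontier volume)

lemma sec_BB (hM : 1 ≤ M) {x : Fin n → ℝ} (hx : x ∈ AM f M) (y : Fin M → ℝ) :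
    (x, y) ∈ BB f M ↔ y ∈ gM f M x • ctr M := by
  have hg := gM_pos hM hx
  rw [mem_smul_set_iff_inv_smul_mem₀ hg.ne']
  constructor
  · rintro ⟨-, h2, h3⟩
    simp only at h2 h3
    refine ⟨fun i => ?_, ?_⟩
    · have := h2 i
      rw [Pi.smul_apply, smul_eq_mul, inv_mul_eq_div, le_div_iff₀ hg]
      linarith
    · simp only [Pi.smul_apply, smul_eq_mul]
      rw [← Finset.mul_sum, inv_mul_eq_div, div_le_one hg]
      exact h3
  · rintro ⟨h2, h3⟩
    refine ⟨hx, fun i => ?_, ?_⟩
    · have := h2 i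
      rw [Pi.smul_apply, smul_eq_mul, inv_mul_eq_div, le_div_iff₀ hg] at this
      simp only
      linarith
    · simp only [Pi.smul_apply, smul_eq_mul] at h3
      rw [← Finset.mul_sum, inv_mul_eq_div, div_le_one hg] at h3
      exact h3

theorem int_KM (hM : 1 ≤ M) (h : LogConcave f) (h1 : ∫ x, f x = 1) {F : (Fin (n + M) → ℝ) → ℝ}
    (hF : Continuous F) {p : (Fin n → ℝ) → ℝ} {q : (Fin M → ℝ) → ℝ} {k : ℕ}
    (hFpq : ∀ w, F (glue n M w) = p w.1 * q w.2)
    (hq : ∀ c : ℝ, 0 < c → ∀ y, q (c • y) = c ^ k * q y) :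
    ∫ z in KM f M, F z = (∫ x in AM f M, p x * gM f M x ^ (M + k)) * ∫ y in ctr M, q y := by
  have hi : IntegrableOn F (KM f M) := intOn (isCompact_KM hM h h1) hF
  have hi2 : IntegrableOn F (BS f M) := hi.mono_set subset_closure
  have hmp := glue_mp n M
  have hemb := (glue n M).measurableEmbedding
  rw [setIntegral_congr_set (KM_ae hM h), ← hmp.setIntegral_preimage_emb hemb F, preimage_BS]
  have hi3 : IntegrableOn (fun w => F (glue n M w)) (BB f M) := by
    rw [← preimage_BS]
    exact (hmp.integrableOn_comp_preimage hemb).2 hi2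
  simp_rw [hFpq] at hi3 ⊢
  have hBm : NullMeasurableSet (BB f M) (volume : Measure ((Fin n → ℝ) × (Fin M → ℝ))) := by
    rw [← preimage_BS]
    exact ((convex_BS hM h).nullMeasurableSet _).preimage hmp.quasiMeasurePreserving
  have hAm : NullMeasurableSet (AM f M) (volume : Measure (Fin n → ℝ)) :=
    (convex_AM h M).nullMeasurableSet _
  rw [← integral_indicator₀ hBm]
  have hi4 := hi3.integrable_indicator₀ hBm
  rw [Measure.volume_eq_prod] at hi4 ⊢
  rw [integral_prod _ hi4, ← integral_mul_const, ← integral_indicator₀ hAm]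
  congr 1
  ext x
  by_cases hx : x ∈ AM f M
  · rw [indicator_of_mem hx]
    have hg := gM_pos hM hx
    have e1 : (fun y => (BB f M).indicator (fun w : (Fin n → ℝ) × (Fin M → ℝ) => p w.1 * q w.2)
        (x, y)) = (gM f M x • ctr M).indicator (fun y => p x * q y) := by
      ext y
      by_cases hy : (x, y) ∈ BB f M
      · rw [indicator_of_mem hy, indicator_of_mem ((sec_BB hM hx y).1 hy)]
      · rw [indicator_of_notMem hy, indicator_of_notMem fun h' => hy ((sec_BB hM hx y).2 h')]
    have hms : MeasurableSet (gM f M x • ctr M) :=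
      ((isCompact_ctr M).smul (gM f M x)).measurableSet
    rw [e1, integral_indicator hms, integral_const_mul]
    have e2 := Measure.setIntegral_comp_smul_of_pos (volume : Measure (Fin M → ℝ)) q (ctr M) hg
    simp_rw [hq _ hg] at e2
    rw [integral_const_mul, Module.finrank_fin_fun, smul_eq_mul, inv_mul_eq_div,
      eq_div_iff (by positivity)] at e2
    rw [← e2, pow_add]
    ring
  · rw [indicator_of_notMem hx]
    have e1 : (fun y => (BB f M).indicator (fun w : (Fin n → ℝ) × (Fin M → ℝ) => p w.1 * q w.2)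
        (x, y)) = fun _ => 0 := by
      ext y
      exact indicator_of_notMem (fun h' => hx h'.1) _
    rw [e1, integral_zero]

/-! ### moments -/

/-- `∫ g^M` -/
noncomputable def I0 (f : (Fin n → ℝ) → ℝ) (M : ℕ) : ℝ := ∫ x in AM f M, gM f M x ^ M

/-- `∫ g^{M+2}` -/
noncomputable def I2 (f : (Fin n → ℝ) → ℝ) (M : ℕ) : ℝ := ∫ x in AM f M, gM f M x ^ (M + 2)

/-- the covariance matrix of the base -/
noncomputable def CM (f : (Fin n → ℝ) → ℝ) (M : ℕ) : Matrix (Fin n) (Fin n) ℝ := fun i j =>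
  (I0 f M)⁻¹ * (∫ x in AM f M, x i * x j * gM f M x ^ M) -
    ((I0 f M)⁻¹ * ∫ x in AM f M, x i * gM f M x ^ M) *
      ((I0 f M)⁻¹ * ∫ x in AM f M, x j * gM f M x ^ M)

section

variable (hM : 1 ≤ M) (h : LogConcave f) (h1 : ∫ x, f x = 1)

include hM h h1

lemma vol_KM : (volume (KM f M)).toReal = I0 f M * (volume (ctr M)).toReal := by
  have h2 := int_KM hM h h1 (F := fun _ => 1) continuous_const (p := fun _ => 1)
    (q := fun _ => 1) (k := 0) (fun w => by simp) (fun c _ y => by simp)
  simp only [one_mul, add_zero, setIntegral_const, smul_eq_mul, mul_one] at h2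
  exact h2

lemma cen_left (hI : 0 < I0 f M) (i : Fin n) :
    centroid (KM f M) (Fin.castAdd M i) = (I0 f M)⁻¹ * ∫ x in AM f M, x i * gM f M x ^ M := by
  have hV := (vol_ctr M).ne'
  have h2 := int_KM hM h h1 (F := fun z => z (Fin.castAdd M i)) (continuous_apply _)
    (p := fun x => x i) (q := fun _ => 1) (k := 0) (fun w => by simp [glue_left])
    (fun c _ y => by simp)
  simp only [add_zero, setIntegral_const, smul_eq_mul, mul_one] at h2
  unfold centroid
  rw [vol_KM hM h h1, h2, Measure.real]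
  have := hI.ne'
  field_simp

lemma cen_right (j : Fin M) : centroid (KM f M) (Fin.natAdd n j) = 0 := by
  have h2 := int_KM hM h h1 (F := fun z => z (Fin.natAdd n j)) (continuous_apply _)
    (p := fun _ => 1) (q := fun y => y j) (k := 1) (fun w => by simp [glue_right])
    (fun c _ y => by simp)
  unfold centroid
  rw [h2, int_ctr]
  ring

lemma cov_KM (hI : 0 < I0 f M) :
    covMatrix (KM f M) = (fromBlocks (CM f M) 0 0 ((I2 f M / I0 f M) •
      covMatrix (ctr M))).submatrix finSumFinEquiv.symm finSumFinEquiv.symm := by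
  have hV := (vol_ctr M).ne'
  have hI' := hI.ne'
  have hc := isCompact_KM hM h h1
  have hVW : (volume (KM f M)).toReal ≠ 0 := by
    rw [vol_KM hM h h1]
    exact mul_ne_zero hI' hV
  have h12 : ∀ (i : Fin n) (j : Fin M),
      covMatrix (KM f M) (Fin.castAdd M i) (Fin.natAdd n j) = 0 := by
    intro i j
    have h2 := int_KM hM h h1 (F := fun z => z (Fin.castAdd M i) * z (Fin.natAdd n j))
      ((continuous_apply _).mul (continuous_apply _))
      (p := fun x => x i) (q := fun y => y j) (k := 1) (fun w => by simp [glue_left, glue_right])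
      (fun c _ y => by simp)
    rw [cov_eq hc hVW, cen_right hM h h1, h2, int_ctr]
    ring
  ext i j
  refine Fin.addCases (fun i' => ?_) (fun i' => ?_) i
  · refine Fin.addCases (fun j' => ?_) (fun j' => ?_) j
    · have h2 := int_KM hM h h1 (F := fun z => z (Fin.castAdd M i') * z (Fin.castAdd M j'))
        ((continuous_apply _).mul (continuous_apply _))
        (p := fun x => x i' * x j') (q := fun _ => 1) (k := 0) (fun w => by simp [glue_left])
        (fun c _ y => by simp)
      simp only [add_zero, setIntegral_const, smul_eq_mul, mul_one] at h2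
      rw [cov_eq hc hVW, cen_left hM h h1 hI, cen_left hM h h1 hI, vol_KM hM h h1, h2]
      simp only [submatrix_apply, finSumFinEquiv_symm_apply_castAdd, fromBlocks_apply₁₁, CM,
        Measure.real]
      field_simp
    · rw [h12]
      simp
  · refine Fin.addCases (fun j' => ?_) (fun j' => ?_) j
    · rw [covMatrix_symm, h12]
      simp
    · have h2 := int_KM hM h h1 (F := fun z => z (Fin.natAdd n i') * z (Fin.natAdd n j'))
        ((continuous_apply _).mul (continuous_apply _))
        (p := fun _ => 1) (q := fun y => y i' * y j') (k := 2) (fun w => by simp [glue_right])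
        (fun c _ y => by simp only [Pi.smul_apply, smul_eq_mul]; ring)
      simp only [one_mul] at h2
      rw [cov_eq hc hVW, cen_right hM h h1, cen_right hM h h1, vol_KM hM h h1, h2]
      simp only [submatrix_apply, finSumFinEquiv_symm_apply_natAdd, fromBlocks_apply₂₂,
        Matrix.smul_apply, smul_eq_mul]
      rw [cov_ctr, I2]
      field_simp
      simp

theorem body_KM (hI : 0 < I0 f M) : IsConvexBody (KM f M) := by
  refine body_of_vol (convex_KM hM h) (isCompact_KM hM h h1) ?_
  rw [vol_KM hM h h1]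
  exact mul_ne_zero hI.ne' (vol_ctr M).ne'

theorem Dn_KM (hI : 0 < I0 f M) :
    Dn (KM f M) = (CM f M).det * (I2 f M / I0 f M) ^ M / I0 f M ^ 2 * simpC M := by
  rw [← Dn_ctr hM]
  unfold FV.Dn
  rw [cov_KM hM h h1 hI, det_submatrix_equiv_self, det_fromBlocks_zero₁₂, det_smul,
    Fintype.card_fin, vol_KM hM h h1]
  have hV := (vol_ctr M).ne'
  have hI' := hI.ne'
  field_simp

end

end Vale.Agent.P254.H375
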