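import Vale.Agent.P254.H375.Defs
import Vale.Agent.P254.Bdl.B2
import Vale.Agent.P254.Bdl.B10
import Vale.Agent.P254.Bdl.B20

/-!
P254, functional form (helper375), part 7: the simplex with centroid `0` and the asymptotics of the
constants of the simplices.
-/

open MeasureTheory Set Filter Topology Matrix

namespace Vale.Agent.P254.H375

open Vale.Agent.P254.FV (Dn simpC simpC_pos Dn_stdS vol_pos body_of_vol isSimplex_stdS isSimplex_aff)

/-- the simplex `{y : yᵢ ≥ -1, ∑ yᵢ ≤ 1}` of `ℝ^M`, with centroid `0` -/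
def ctr (M : ℕ) : Set (Fin M → ℝ) := {y | (∀ i, -1 ≤ y i) ∧ ∑ i, y i ≤ 1}

lemma ctr_det (M : ℕ) : (((M : ℝ) + 1) • (1 : Matrix (Fin M) (Fin M) ℝ)).det ≠ 0 := by
  rw [det_smul, det_one, mul_one]
  positivity

lemma ctr_eq (M : ℕ) :
    ctr M = aff (((M : ℝ) + 1) • (1 : Matrix (Fin M) (Fin M) ℝ)) (fun _ => -1) '' stdS M := by
  have hM : (0 : ℝ) < (M : ℝ) + 1 := by positivity
  have e : ∀ x : Fin M → ℝ, aff (((M : ℝ) + 1) • (1 : Matrix (Fin M) (Fin M) ℝ)) (fun _ => -1) x =
      fun i => ((M : ℝ) + 1) * x i - 1 := by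
    intro x
    ext i
    simp [aff, smul_mulVec, sub_eq_add_neg]
  ext y
  constructor
  · rintro ⟨h1, h2⟩
    refine ⟨fun i => (y i + 1) / ((M : ℝ) + 1), ⟨fun i => ?_, ?_⟩, ?_⟩
    · have := h1 i
      exact div_nonneg (by linarith) hM.le
    · rw [← Finset.sum_div, div_le_one hM, Finset.sum_add_distrib]
      simp
      linarith
    · rw [e]
      ext i
      field_simp
      ring
  · rintro ⟨x, ⟨h1, h2⟩, rfl⟩
    rw [e]
    refine ⟨fun i => ?_, ?_⟩
    · have := mul_nonneg hM.le (h1 i)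
      simp only
      linarith
    · rw [Finset.sum_sub_distrib, ← Finset.mul_sum]
      simp
      nlinarith

lemma isCompact_ctr (M : ℕ) : IsCompact (ctr M) := by
  rw [ctr_eq]
  exact isCompact_aff_image _ _ isCompact_stdS

lemma vol_ctr (M : ℕ) : 0 < (volume (ctr M)).toReal := by
  rw [ctr_eq, volume_aff_image (ctr_det M) _ isCompact_stdS.measurableSet]
  exact mul_pos (abs_pos.2 (ctr_det M)) volume_stdS_pos

lemma centroid_ctr (M : ℕ) (i : Fin M) : centroid (ctr M) i = 0 := by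
  have h := centroid_aff_image (ctr_det M) (fun _ => -1) isCompact_stdS
    (volume_stdS_pos (n := M)).ne'
  rw [ctr_eq, h]
  have hM : (0 : ℝ) < (M : ℝ) + 1 := by positivity
  simp [aff, smul_mulVec, centroid_stdS]
  field_simp
  simp

lemma int_ctr (M : ℕ) (i : Fin M) : ∫ y in ctr M, y i = 0 := by
  have h := centroid_ctr M i
  unfold centroid at h
  exact (mul_eq_zero.1 h).resolve_left (inv_ne_zero (vol_ctr M).ne')

lemma cov_ctr (M : ℕ) (i j : Fin M) :
    covMatrix (ctr M) i j = (volume (ctr M)).toReal⁻¹ * ∫ y in ctr M, y i * y j := by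
  rw [cov_eq (isCompact_ctr M) (vol_ctr M).ne', centroid_ctr, centroid_ctr]
  ring

lemma Dn_ctr {M : ℕ} (hM : 1 ≤ M) : Dn (ctr M) = simpC M := by
  rw [← Dn_stdS hM, ctr_eq]
  unfold FV.Dn
  have hV := (volume_stdS_pos (n := M)).ne'
  rw [cov_aff_image (ctr_det M) _ isCompact_stdS hV,
    volume_aff_image (ctr_det M) _ isCompact_stdS.measurableSet,
    det_mul, det_mul, det_transpose, mul_pow, sq_abs]
  have hd := ctr_det M
  field_simp

/-! ### asymptotics of the constants -/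

lemma simpC_succ_div (N : ℕ) : simpC (N + 1) / simpC N =
    (1 + -1 / ((N : ℝ) + 2)) ^ 2 * ((1 + -2 / ((N : ℝ) + 3)) ^ N * (1 + -2 / ((N : ℝ) + 3))) := by
  have e1 : 1 + -1 / ((N : ℝ) + 2) = ((N : ℝ) + 1) / (N + 2) := by
    field_simp; ring
  have e2 : 1 + -2 / ((N : ℝ) + 3) = ((N : ℝ) + 1) / (N + 3) := by
    field_simp; ring
  rw [e1, e2]
  unfold FV.simpC
  rw [Nat.factorial_succ]
  push_cast
  have e3 : (N : ℝ) + 1 + 1 = N + 2 := by ring
  have e4 : (N : ℝ) + 1 + 2 = N + 3 := by ring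
  rw [e3, e4, mul_pow ((N : ℝ) + 1) ((N : ℝ) + 2) N, mul_pow ((N : ℝ) + 2) ((N : ℝ) + 3) (N + 1),
    div_pow, div_pow]
  have h1 : (0 : ℝ) < N + 1 := by positivity
  have h2 : (0 : ℝ) < N + 2 := by positivity
  have h3 : (0 : ℝ) < N + 3 := by positivity
  have h4 : (0 : ℝ) < N.factorial := by positivity
  rw [pow_succ ((N : ℝ) + 2) N, pow_succ ((N : ℝ) + 3) N]
  field_simp

lemma tendsto_simpC_succ :
    Tendsto (fun N : ℕ => simpC (N + 1) / simpC N) atTop (𝓝 (Real.exp (-2))) := by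
  have h1 : Tendsto (fun N : ℕ => (N : ℝ)) atTop atTop := tendsto_natCast_atTop_atTop
  have h2 : ∀ a b : ℝ, Tendsto (fun N : ℕ => 1 + a / ((N : ℝ) + b)) atTop (𝓝 1) := by
    intro a b
    have : Tendsto (fun N : ℕ => a / ((N : ℝ) + b)) atTop (𝓝 0) :=
      Tendsto.div_atTop tendsto_const_nhds (tendsto_atTop_add_const_right _ _ h1)
    simpa using this.const_add 1
  have h3 : Tendsto (fun N : ℕ => (N : ℝ) * (-2 / ((N : ℝ) + 3))) atTop (𝓝 (-2)) := by
    have e : (fun N : ℕ => (N : ℝ) * (-2 / ((N : ℝ) + 3))) =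
        fun N : ℕ => (-2) * (1 + -3 / ((N : ℝ) + 3)) := by
      ext N
      field_simp
      ring
    rw [e]
    simpa using (h2 (-3) 3).const_mul (-2)
  have h4 := Real.tendsto_one_add_pow_exp_of_tendsto h3
  have h5 := ((h2 (-1) 2).pow 2).mul (h4.mul (h2 (-2) 3))
  simp only [one_pow, mul_one, one_mul] at h5
  refine h5.congr fun N => ?_
  rw [simpC_succ_div]

theorem tendsto_simpC (n : ℕ) :
    Tendsto (fun M : ℕ => simpC (n + M) / simpC M) atTop (𝓝 (Real.exp (-(2 * n)))) := by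
  induction n with
  | zero =>
    simp only [Nat.cast_zero, mul_zero, neg_zero, Real.exp_zero, Nat.zero_add]
    refine tendsto_const_nhds.congr fun M => ?_
    rw [div_self (simpC_pos M).ne']
  | succ n ih =>
    have h1 := (tendsto_simpC_succ.comp (tendsto_add_atTop_nat n)).mul ih
    rw [← Real.exp_add] at h1
    have e : -2 + -(2 * (n : ℝ)) = -(2 * ((n + 1 : ℕ) : ℝ)) := by push_cast; ring
    rw [e] at h1
    refine h1.congr fun M => ?_
    simp only [Function.comp]
    have e2 : n + 1 + M = M + n + 1 := by omega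
    have e3 : n + M = M + n := by omega
    rw [e2, e3, div_mul_div_cancel₀ (simpC_pos (M + n)).ne']

end Vale.Agent.P254.H375
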