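import Vale.Agent.P254.H375.Epi

/-!
P254, functional form (helper375), part 3: from `NiceDDL δ (n + 1)` to the entropy inequality
with an additive loss `δ`.
-/

open MeasureTheory Set Filter Topology Metric Matrix
open Vale.Agent.P254.R304

namespace Vale.Agent.P254.H375

variable {n : ℕ} {f : (Fin n → ℝ) → ℝ}

lemma JJ_quad (h : LogConcave f) (x : Fin n → ℝ) {q : (Fin (n + 1) → ℝ) → ℝ} {A B C : ℝ}
    (hq : ∀ t, q (Fin.cons t x) = A * t ^ 2 + B * t + C) :
    JJ f q x = (A * (-Real.log (f x)) ^ 2 + (2 * A + B) * (-Real.log (f x)) + (2 * A + B + C)) *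
      f x := by
  unfold JJ
  by_cases hf : 0 < f x
  · rw [if_pos hf]
    simp only [hq]
    rw [quad_integral, neg_neg, Real.exp_log hf]
  · rw [if_neg hf, le_antisymm (not_lt.1 hf) (h.1 x), mul_zero]

lemma GG_mass (h : LogConcave f) (h1 : ∫ x, f x = 1) : ∫ p, GG f p = 1 := by
  have h2 := (integral_GG h h1 (pg_one (n := n + 1))).2
  simp only [one_mul] at h2
  rw [h2]
  refine (integral_congr_ae (ae_of_all _ fun x => ?_)).trans h1
  change JJ f (fun _ => (1 : ℝ)) x = f x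
  rw [JJ_quad h x (A := 0) (B := 0) (C := 1) (fun t => by ring)]
  ring

lemma Ef_GG (h : LogConcave f) (h1 : ∫ x, f x = 1) {q : (Fin (n + 1) → ℝ) → ℝ}
    (hq : PolyGrowth q) : Ef (GG f) q = ∫ x, JJ f q x := by
  unfold Ef
  rw [GG_mass h h1, div_one, (integral_GG h h1 hq).2]

lemma cov_eq_covF (h1 : ∫ x, f x = 1) : cov f = covF f := by
  ext i j
  simp only [cov, covF, of_apply, Ef, h1, div_one]

lemma covF_GG (h : LogConcave f) (h1 : ∫ x, f x = 1) (i j : Fin n) :
    covF (GG f) i.succ j.succ = cov f i j := by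
  simp only [covF, of_apply]
  rw [Ef_GG h h1 (pg_coord2 _ _), Ef_GG h h1 (pg_coord _), Ef_GG h h1 (pg_coord _)]
  unfold cov
  congr 1
  · refine integral_congr_ae (ae_of_all _ fun x => ?_)
    simp only
    rw [JJ_quad h x (A := 0) (B := 0) (C := x i * x j) (fun t => by simp)]
    ring
  · congr 1
    · refine integral_congr_ae (ae_of_all _ fun x => ?_)
      simp only
      rw [JJ_quad h x (A := 0) (B := 0) (C := x i) (fun t => by simp)]
      ring
    · refine integral_congr_ae (ae_of_all _ fun x => ?_)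
      simp only
      rw [JJ_quad h x (A := 0) (B := 0) (C := x j) (fun t => by simp)]
      ring

theorem integrable_flog (h : LogConcave f) (h1 : ∫ x, f x = 1) :
    Integrable fun x => f x * Real.log (f x) := by
  obtain ⟨M, a, hM, hg⟩ := h.good h1
  exact ent_integrable a M hg.ha hM hg.meas hg.nn hg.le

lemma entF_GG (h : LogConcave f) (h1 : ∫ x, f x = 1) : entF (GG f) = 1 + entropy f := by
  unfold entF
  rw [GG_mass h h1, Real.log_one, div_one, zero_sub]
  have e1 : ∀ p, GG f p * Real.log (GG f p) = -(p 0 * GG f p) := by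
    intro p
    by_cases hp : p ∈ closure (EE f)
    · rw [GG_mem hp, Real.log_exp]
      ring
    · rw [GG_notMem hp]
      simp
  simp only [e1]
  rw [integral_neg, neg_neg, (integral_GG h h1 (pg_coord 0)).2]
  have e2 : ∀ x, JJ f (fun p => p 0) x = f x - f x * Real.log (f x) := by
    intro x
    rw [JJ_quad h x (A := 0) (B := 1) (C := 0) (fun t => by simp)]
    ring
  simp only [e2]
  rw [integral_sub (integrable_of_one h1) (integrable_flog h h1), h1]
  unfold entropy
  ring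

lemma quad_ge (h : LogConcave f) (h1 : ∫ x, f x = 1) {u : Fin (n + 1) → ℝ} (hu : u 0 = 1) :
    1 ≤ u ⬝ᵥ covF (GG f) *ᵥ u := by
  obtain ⟨M, a, -, hg⟩ := GG_good h h1
  rw [hg.covF_quad]
  obtain ⟨b, hb⟩ : ∃ b, b = u ⬝ᵥ (fun i => Ef (GG f) (fun y => y i)) := ⟨_, rfl⟩
  rw [← hb]
  have hpg : PolyGrowth (fun x : Fin (n + 1) → ℝ => (u ⬝ᵥ x - b) ^ 2) := by
    refine ⟨?_, (((n + 1 : ℕ) : ℝ) * ‖u‖ + |b|) ^ 2, 2, fun x => ?_⟩
    · apply Continuous.aestronglyMeasurable
      simp only [dotProduct]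
      fun_prop
    · rw [abs_pow]
      have h1 := abs_dot_le' u x
      have h2 : |u ⬝ᵥ x - b| ≤ (((n + 1 : ℕ) : ℝ) * ‖u‖ + |b|) * (1 + ‖x‖) := by
        have h3 : |u ⬝ᵥ x - b| ≤ |u ⬝ᵥ x| + |b| := abs_sub _ _
        have h4 : 0 ≤ |b| := abs_nonneg _
        have h5 : 0 ≤ ‖x‖ := norm_nonneg _
        have h6 : 0 ≤ ((n + 1 : ℕ) : ℝ) * ‖u‖ := by positivity
        nlinarith [mul_nonneg h4 h5]
      calc |u ⬝ᵥ x - b| ^ 2 ≤ ((((n + 1 : ℕ) : ℝ) * ‖u‖ + |b|) * (1 + ‖x‖)) ^ 2 := by gcongr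
        _ = _ := by ring
  rw [Ef_GG h h1 hpg]
  have h2 := (integral_GG h h1 hpg).1
  have h3 : ∫ x, f x ≤ ∫ x, JJ f (fun x : Fin (n + 1) → ℝ => (u ⬝ᵥ x - b) ^ 2) x := by
    refine integral_mono (integrable_of_one h1) h2 fun x => ?_
    obtain ⟨w, hw⟩ : ∃ w, w = (∑ i : Fin n, u i.succ * x i) - b := ⟨_, rfl⟩
    have e1 : ∀ t, (fun x : Fin (n + 1) → ℝ => (u ⬝ᵥ x - b) ^ 2) (Fin.cons t x) =
        1 * t ^ 2 + (2 * w) * t + w ^ 2 := by
      intro t
      simp only [dotProduct, Fin.sum_univ_succ, Fin.cons_zero, Fin.cons_succ, hu]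
      rw [hw]
      ring
    rw [JJ_quad h x e1]
    have h4 := h.1 x
    have h5 : 1 ≤ 1 * (-Real.log (f x)) ^ 2 + (2 * 1 + 2 * w) * (-Real.log (f x)) +
        (2 * 1 + 2 * w + w ^ 2) := by
      nlinarith [sq_nonneg (-Real.log (f x) + w + 1)]
    nlinarith
  rw [h1] at h3
  exact h3

theorem cov_posDef (h : LogConcave f) (h1 : ∫ x, f x = 1) : (cov f).PosDef := by
  obtain ⟨M, a, -, hg⟩ := h.good h1
  rw [cov_eq_covF h1]
  exact hg.covF_posDef

theorem det_le (h : LogConcave f) (h1 : ∫ x, f x = 1) : (cov f).det ≤ (covF (GG f)).det := by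
  have hd := (cov_posDef h h1).det_pos
  obtain ⟨A, hA⟩ : ∃ A, A = covF (GG f) := ⟨_, rfl⟩
  have hadj : A.adjugate 0 0 = (cov f).det := by
    rw [adjugate_fin_succ_eq_det_submatrix]
    simp only [Fin.val_zero, add_zero, pow_zero, one_mul, Fin.succAbove_zero]
    congr 1
    ext i j
    rw [submatrix_apply, hA, covF_GG h h1]
  obtain ⟨a, ha⟩ : ∃ a : Fin (n + 1) → ℝ, a = fun i => A.adjugate i 0 := ⟨_, rfl⟩
  have hAa : A *ᵥ a = fun i => if i = 0 then A.det else 0 := by
    ext i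
    have h2 := congrFun (congrFun (mul_adjugate A) i) 0
    rw [mul_apply] at h2
    simp only [mulVec, dotProduct, ha]
    rw [h2, Matrix.smul_apply, one_apply, smul_eq_mul]
    split_ifs <;> simp
  have h3 := quad_ge h h1 (u := fun i => a i / (cov f).det) (by
    simp only [ha, hadj]
    exact div_self hd.ne')
  rw [← hA] at h3
  have e1 : (fun i => a i / (cov f).det) = ((cov f).det)⁻¹ • a := by
    ext i
    simp only [Pi.smul_apply, smul_eq_mul]
    ring
  rw [e1, mulVec_smul, smul_dotProduct, dotProduct_smul, hAa] at h3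
  have e2 : a ⬝ᵥ (fun i => if i = 0 then A.det else 0) = (cov f).det * A.det := by
    unfold dotProduct
    simp only [mul_ite, mul_zero, Finset.sum_ite_eq', Finset.mem_univ, if_true]
    rw [ha]
    simp only
    rw [hadj]
  rw [e2, smul_eq_mul, smul_eq_mul, inv_mul_cancel_left₀ hd.ne', inv_mul_eq_div, le_div_iff₀ hd,
    one_mul, hA] at h3
  exact h3

/-- the entropy inequality with an additive loss -/
theorem one_step {δ : ℝ} (hN : X.Loss.NiceDDL δ (n + 1)) (h : LogConcave f)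
    (h1 : ∫ x, f x = 1) :
    (1 - δ) * n - δ + 1 / 2 * Real.log (cov f).det ≤ entropy f := by
  have h2 := DD_GG hN h h1
  unfold DD at h2
  rw [entF_GG h h1] at h2
  have h3 := Real.log_le_log (cov_posDef h h1).det_pos (det_le h h1)
  push_cast at h2
  linarith

end Vale.Agent.P254.H375
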