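import Vale.Agent.P254.H375.Step

/-!
P254, functional form (helper375), part 4: tensorisation removes the additive loss.
-/

open MeasureTheory Set Filter Topology Metric Matrix
open Vale.Agent.P254.R304

namespace Vale.Agent.P254.H375

variable {n : ℕ} {f : (Fin n → ℝ) → ℝ}

/-- the first half of a vector -/
def lft (z : Fin (n + n) → ℝ) : Fin n → ℝ := fun i => z (Fin.castAdd n i)

/-- the second half of a vector -/
def rgt (z : Fin (n + n) → ℝ) : Fin n → ℝ := fun i => z (Fin.natAdd n i)

/-- `ℝ^{2n} = ℝ^n × ℝ^n` -/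
noncomputable def spl (n : ℕ) : (Fin (n + n) → ℝ) ≃ᵐ (Fin n → ℝ) × (Fin n → ℝ) :=
  (MeasurableEquiv.piCongrLeft (fun _ : Fin n ⊕ Fin n => ℝ) finSumFinEquiv.symm).trans
    (MeasurableEquiv.sumPiEquivProdPi (fun _ : Fin n ⊕ Fin n => ℝ))

lemma spl_apply (z : Fin (n + n) → ℝ) : spl n z = (lft z, rgt z) := by
  have h1 : ∀ s : Fin n ⊕ Fin n,
      MeasurableEquiv.piCongrLeft (fun _ : Fin n ⊕ Fin n => ℝ) finSumFinEquiv.symm z s =
        z (finSumFinEquiv s) := by
    intro s
    obtain ⟨b, rfl⟩ := finSumFinEquiv.symm.surjective s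
    rw [MeasurableEquiv.coe_piCongrLeft, Equiv.piCongrLeft_apply_apply, Equiv.apply_symm_apply]
  ext i
  · change MeasurableEquiv.piCongrLeft (fun _ : Fin n ⊕ Fin n => ℝ) finSumFinEquiv.symm z
      (Sum.inl i) = z (Fin.castAdd n i)
    rw [h1, finSumFinEquiv_apply_left]
  · change MeasurableEquiv.piCongrLeft (fun _ : Fin n ⊕ Fin n => ℝ) finSumFinEquiv.symm z
      (Sum.inr i) = z (Fin.natAdd n i)
    rw [h1, finSumFinEquiv_apply_right]

lemma spl_mp (n : ℕ) : MeasurePreserving (spl n) :=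
  (volume_measurePreserving_sumPiEquivProdPi (fun _ : Fin n ⊕ Fin n => ℝ)).comp
    (volume_measurePreserving_piCongrLeft (fun _ : Fin n ⊕ Fin n => ℝ) finSumFinEquiv.symm)

lemma integral_spl (a b : (Fin n → ℝ) → ℝ) :
    ∫ z : Fin (n + n) → ℝ, a (lft z) * b (rgt z) = (∫ x, a x) * ∫ x, b x := by
  have h1 := (spl_mp n).integral_comp' (g := fun p : (Fin n → ℝ) × (Fin n → ℝ) => a p.1 * b p.2)
  simp only [spl_apply] at h1
  rw [h1]
  exact integral_prod_mul a b

lemma integrable_spl {a b : (Fin n → ℝ) → ℝ} (ha : Integrable a) (hb : Integrable b) :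
    Integrable fun z : Fin (n + n) → ℝ => a (lft z) * b (rgt z) := by
  have h1 := ((spl_mp n).integrable_comp_emb (spl n).measurableEmbedding
    (g := fun p : (Fin n → ℝ) × (Fin n → ℝ) => a p.1 * b p.2)).2 (ha.mul_prod hb)
  refine h1.congr (ae_of_all _ fun z => ?_)
  simp only [Function.comp_apply, spl_apply]

/-- the tensor square -/
def tsq (f : (Fin n → ℝ) → ℝ) (z : Fin (n + n) → ℝ) : ℝ := f (lft z) * f (rgt z)

lemma tsq_logConcave (h : LogConcave f) : LogConcave (tsq f) := by
  refine ⟨fun z => mul_nonneg (h.1 _) (h.1 _), fun z w t ht => ?_⟩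
  unfold tsq
  rw [Real.mul_rpow (h.1 _) (h.1 _), Real.mul_rpow (h.1 _) (h.1 _)]
  have h1 := h.2 (lft z) (lft w) t ht
  have h2 := h.2 (rgt z) (rgt w) t ht
  calc f (lft z) ^ (1 - t) * f (rgt z) ^ (1 - t) * (f (lft w) ^ t * f (rgt w) ^ t) =
        (f (lft z) ^ (1 - t) * f (lft w) ^ t) * (f (rgt z) ^ (1 - t) * f (rgt w) ^ t) := by ring
    _ ≤ f ((1 - t) • lft z + t • lft w) * f ((1 - t) • rgt z + t • rgt w) :=
        mul_le_mul h1 h2 (mul_nonneg (Real.rpow_nonneg (h.1 _) _) (Real.rpow_nonneg (h.1 _) _))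
          (h.1 _)

lemma tsq_mass (h1 : ∫ x, f x = 1) : ∫ z, tsq f z = 1 := by
  unfold tsq
  rw [integral_spl, h1, one_mul]

lemma cov_tsq (h1 : ∫ x, f x = 1) :
    (cov (tsq f)).submatrix finSumFinEquiv finSumFinEquiv = fromBlocks (cov f) 0 0 (cov f) := by
  have hl : ∀ i : Fin n, ∫ z, z (Fin.castAdd n i) * tsq f z = ∫ x, x i * f x := by
    intro i
    have := integral_spl (fun x : Fin n → ℝ => x i * f x) f
    rw [h1, mul_one] at this
    rw [← this]
    congr 1; ext z; simp only [tsq, lft, rgt]; ring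
  have hr : ∀ i : Fin n, ∫ z, z (Fin.natAdd n i) * tsq f z = ∫ x, x i * f x := by
    intro i
    have := integral_spl f (fun x : Fin n → ℝ => x i * f x)
    rw [h1, one_mul] at this
    rw [← this]
    congr 1; ext z; simp only [tsq, lft, rgt]; ring
  ext i j
  rcases i with i | i <;> rcases j with j | j
  · simp only [submatrix_apply, finSumFinEquiv_apply_left, fromBlocks_apply₁₁]
    unfold cov
    rw [hl, hl]
    congr 1
    have := integral_spl (fun x : Fin n → ℝ => x i * x j * f x) f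
    rw [h1, mul_one] at this
    rw [← this]
    congr 1; ext z; simp only [tsq, lft, rgt]; ring
  · simp only [submatrix_apply, finSumFinEquiv_apply_left, finSumFinEquiv_apply_right,
      fromBlocks_apply₁₂]
    unfold cov
    rw [hl, hr, Matrix.zero_apply, sub_eq_zero, ← integral_spl]
    congr 1; ext z; simp only [tsq, lft, rgt]; ring
  · simp only [submatrix_apply, finSumFinEquiv_apply_left, finSumFinEquiv_apply_right,
      fromBlocks_apply₂₁]
    unfold cov
    rw [hl, hr, Matrix.zero_apply, sub_eq_zero, mul_comm, ← integral_spl]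
    congr 1; ext z; simp only [tsq, lft, rgt]; ring
  · simp only [submatrix_apply, finSumFinEquiv_apply_right, fromBlocks_apply₂₂]
    unfold cov
    rw [hr, hr]
    congr 1
    have := integral_spl f (fun x : Fin n → ℝ => x i * x j * f x)
    rw [h1, one_mul] at this
    rw [← this]
    congr 1; ext z; simp only [tsq, lft, rgt]; ring

lemma det_tsq (h1 : ∫ x, f x = 1) : (cov (tsq f)).det = (cov f).det ^ 2 := by
  rw [← det_submatrix_equiv_self finSumFinEquiv, cov_tsq h1, det_fromBlocks_zero₂₁, sq]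

lemma entropy_tsq (h : LogConcave f) (h1 : ∫ x, f x = 1) :
    entropy (tsq f) = 2 * entropy f := by
  have hi := integrable_of_one h1
  have hl := integrable_flog h h1
  unfold entropy
  have e1 : ∀ z, tsq f z * Real.log (tsq f z) =
      (f (lft z) * Real.log (f (lft z))) * f (rgt z) +
        f (lft z) * (f (rgt z) * Real.log (f (rgt z))) := by
    intro z
    unfold tsq
    rcases eq_or_ne (f (lft z)) 0 with h2 | h2
    · rw [h2]; ring
    rcases eq_or_ne (f (rgt z)) 0 with h3 | h3
    · rw [h3]; ring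
    rw [Real.log_mul h2 h3]
    ring
  simp only [e1]
  rw [integral_add (integrable_spl hl hi) (integrable_spl hi hl),
    integral_spl (fun x => f x * Real.log (f x)) f,
    integral_spl f (fun x => f x * Real.log (f x)), h1]
  ring

theorem with_loss {δ : ℝ} (hN : ∀ n, X.Loss.NiceDDL δ n) (k : ℕ) :
    ∀ (n : ℕ) (f : (Fin n → ℝ) → ℝ), LogConcave f → ∫ x, f x = 1 →
      (1 - δ) * n - δ / 2 ^ k + 1 / 2 * Real.log (cov f).det ≤ entropy f := by
  induction k with
  | zero =>
    intro n f h h1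
    have := one_step (hN (n + 1)) h h1
    simpa using this
  | succ k ih =>
    intro n f h h1
    have h2 := ih (n + n) (tsq f) (tsq_logConcave h) (tsq_mass h1)
    rw [det_tsq h1, entropy_tsq h h1, Real.log_pow] at h2
    push_cast at h2
    have e1 : δ / 2 ^ (k + 1) = δ / 2 ^ k / 2 := by
      rw [pow_succ]
      field_simp
    rw [e1]
    linarith

/-- **entropy inequality for log-concave densities** -/
theorem entropy_ge {δ : ℝ} (hN : ∀ n, X.Loss.NiceDDL δ n) (h : LogConcave f)
    (h1 : ∫ x, f x = 1) : (1 - δ) * n + 1 / 2 * Real.log (cov f).det ≤ entropy f := by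
  have h2 : Tendsto (fun k : ℕ => (1 - δ) * n - δ / 2 ^ k + 1 / 2 * Real.log (cov f).det) atTop
      (𝓝 ((1 - δ) * n - 0 + 1 / 2 * Real.log (cov f).det)) := by
    refine ((tendsto_const_nhds).sub ?_).add_const _
    have h3 : Tendsto (fun k : ℕ => δ * ((1 / 2 : ℝ) ^ k)) atTop (𝓝 (δ * 0)) :=
      (tendsto_pow_atTop_nhds_zero_of_lt_one (by norm_num) (by norm_num)).const_mul δ
    rw [mul_zero] at h3
    refine h3.congr fun k => ?_
    rw [one_div, inv_pow, div_eq_mul_inv]
  rw [sub_zero] at h2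
  exact le_of_tendsto' h2 fun k => with_loss hN k n f h h1

end Vale.Agent.P254.H375
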